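import Vale.Agent.P227.M.Defs

/-! # Calculus of locally Lipschitz functions with compact support

`(P)` `∫ ∂_i f = 0`, `(J)` `∫ ∂_a f ∂_b g = ∫ ∂_b f ∂_a g`. -/

open MeasureTheory Set Filter Metric
open scoped Topology NNReal

namespace Vale.Agent.P227.M.Key718

variable {n : ℕ}

theorem ll_mul {f g : E n → ℝ} (hf : LocallyLipschitz f) (hg : LocallyLipschitz g) :
    LocallyLipschitz fun x => f x * g x :=
  (contDiff_mul (𝕜 := ℝ) (n := 1) (𝔸 := ℝ)).locallyLipschitz.comp (hf.prodMk hg)

theorem ll_add {f g : E n → ℝ} (hf : LocallyLipschitz f) (hg : LocallyLipschitz g) :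
    LocallyLipschitz fun x => f x + g x :=
  (contDiff_add (𝕜 := ℝ) (n := 1) (F := ℝ)).locallyLipschitz.comp (hf.prodMk hg)

theorem ll_const (c : ℝ) : LocallyLipschitz fun _ : E n => c := LocallyLipschitz.const c

theorem ll_neg {f : E n → ℝ} (hf : LocallyLipschitz f) : LocallyLipschitz fun x => -f x := by
  have h := ll_mul (ll_const (n := n) (-1)) hf
  simpa only [neg_one_mul] using h

theorem ll_sub {f g : E n → ℝ} (hf : LocallyLipschitz f) (hg : LocallyLipschitz g) :
    LocallyLipschitz fun x => f x - g x := by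
  have h := ll_add hf (ll_neg hg)
  simpa only [← sub_eq_add_neg] using h

theorem ll_sum {ι : Type*} (s : Finset ι) {f : ι → E n → ℝ} (hf : ∀ i ∈ s, LocallyLipschitz (f i)) :
    LocallyLipschitz fun x => ∑ i ∈ s, f i x := by
  classical
  induction s using Finset.induction_on with
  | empty => simpa using ll_const (n := n) 0
  | insert i s hi ih =>
    simp only [Finset.sum_insert hi]
    exact ll_add (hf i (Finset.mem_insert_self i s))
      (ih fun j hj => hf j (Finset.mem_insert_of_mem hj))

theorem ll_lipOn {f : E n → ℝ} (hf : LocallyLipschitz f) (R : ℝ) :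
    ∃ K : ℝ≥0, LipschitzOnWith K f (closedBall 0 R) :=
  hf.locallyLipschitzOn.exists_lipschitzOnWith_of_compact (isCompact_closedBall 0 R)

theorem ll_ae {f : E n → ℝ} (hf : LocallyLipschitz f) : ∀ᵐ x, DifferentiableAt ℝ f x := by
  have h : ∀ k : ℕ, ∀ᵐ x, x ∈ ball (0 : E n) k → DifferentiableAt ℝ f x := by
    intro k
    obtain ⟨K, hK⟩ := ll_lipOn hf k
    have h1 := (hK.mono ball_subset_closedBall).ae_differentiableWithinAt_of_mem
      (μ := (volume : Measure (E n)))
    filter_upwards [h1] with x hx hxk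
    exact (hx hxk).differentiableAt (isOpen_ball.mem_nhds hxk)
  filter_upwards [ae_all_iff.2 h] with x hx
  obtain ⟨k, hk⟩ := exists_nat_gt ‖x‖
  exact hx k (by simpa using hk)

/-- a locally Lipschitz function with compact support is Lipschitz -/
theorem ll_lip {f : E n → ℝ} (hf : LocallyLipschitz f) (hc : HasCompactSupport f) :
    ∃ K : ℝ≥0, LipschitzWith K f := by
  obtain ⟨R, hR⟩ := hc.isCompact.isBounded.subset_closedBall 0
  obtain ⟨K, hK⟩ := ll_lipOn hf (R + 1)
  obtain ⟨B, hB⟩ := hf.continuous.bounded_above_of_compact_support hc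
  have hz : ∀ x, x ∉ closedBall (0 : E n) R → f x = 0 := fun x hx =>
    image_eq_zero_of_notMem_tsupport fun h => hx (hR h)
  have key : ∀ x y, y ∉ closedBall (0 : E n) (R + 1) → |f x - f y| ≤ |B| * dist x y := by
    intro x y hy
    have hy0 : f y = 0 := hz y fun h => hy (closedBall_subset_closedBall (by linarith) h)
    by_cases hx : x ∈ closedBall (0 : E n) R
    · have h1 : 1 ≤ dist x y := by
        rw [mem_closedBall, dist_zero_right] at hx
        rw [mem_closedBall, dist_zero_right, not_le] at hy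
        have h2 : ‖y‖ - ‖x‖ ≤ ‖y - x‖ := norm_sub_norm_le y x
        rw [dist_comm, dist_eq_norm]
        linarith
      rw [hy0, sub_zero]
      have h3 : |f x| ≤ |B| := (hB x).trans (le_abs_self B)
      nlinarith [abs_nonneg B]
    · rw [hy0, hz x hx, sub_zero, abs_zero]
      positivity
  refine ⟨max K ⟨|B|, abs_nonneg B⟩, LipschitzWith.of_dist_le_mul fun x y => ?_⟩
  rw [Real.dist_eq]
  by_cases hy : y ∈ closedBall (0 : E n) (R + 1)
  · by_cases hx : x ∈ closedBall (0 : E n) (R + 1)
    · have h1 := hK.dist_le_mul x hx y hy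
      rw [Real.dist_eq] at h1
      refine h1.trans (mul_le_mul_of_nonneg_right ?_ dist_nonneg)
      exact_mod_cast le_max_left _ _
    · have h1 := key y x hx
      rw [abs_sub_comm, dist_comm] at h1
      refine h1.trans (mul_le_mul_of_nonneg_right ?_ dist_nonneg)
      have h2 : (⟨|B|, abs_nonneg B⟩ : ℝ≥0) ≤ max K ⟨|B|, abs_nonneg B⟩ := le_max_right _ _
      exact_mod_cast h2
  · refine (key x y hy).trans (mul_le_mul_of_nonneg_right ?_ dist_nonneg)
    have h2 : (⟨|B|, abs_nonneg B⟩ : ℝ≥0) ≤ max K ⟨|B|, abs_nonneg B⟩ := le_max_right _ _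
    exact_mod_cast h2

theorem pd_meas (i : Fin n) (f : E n → ℝ) : Measurable (pd i f) :=
  measurable_fderiv_apply_const ℝ f (ei i)

/-- measurable and bounded on balls -/
def LB (f : E n → ℝ) : Prop := Measurable f ∧ ∀ R : ℝ, ∃ B : ℝ, ∀ x ∈ ball (0 : E n) R, |f x| ≤ B

theorem lb_mul {f g : E n → ℝ} (hf : LB f) (hg : LB g) : LB fun x => f x * g x := by
  refine ⟨hf.1.mul hg.1, fun R => ?_⟩
  obtain ⟨A, hA⟩ := hf.2 R
  obtain ⟨B, hB⟩ := hg.2 R
  refine ⟨A * B, fun x hx => ?_⟩
  rw [abs_mul]
  exact mul_le_mul (hA x hx) (hB x hx) (abs_nonneg _) ((abs_nonneg _).trans (hA x hx))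

theorem lb_add {f g : E n → ℝ} (hf : LB f) (hg : LB g) : LB fun x => f x + g x := by
  refine ⟨hf.1.add hg.1, fun R => ?_⟩
  obtain ⟨A, hA⟩ := hf.2 R
  obtain ⟨B, hB⟩ := hg.2 R
  exact ⟨A + B, fun x hx => (abs_add_le _ _).trans (add_le_add (hA x hx) (hB x hx))⟩

theorem lb_neg {f : E n → ℝ} (hf : LB f) : LB fun x => -f x := by
  refine ⟨hf.1.neg, fun R => ?_⟩
  obtain ⟨A, hA⟩ := hf.2 R
  exact ⟨A, fun x hx => by rw [abs_neg]; exact hA x hx⟩

theorem lb_sub {f g : E n → ℝ} (hf : LB f) (hg : LB g) : LB fun x => f x - g x := by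
  have h := lb_add hf (lb_neg hg)
  simpa only [← sub_eq_add_neg] using h

theorem lb_const (c : ℝ) : LB fun _ : E n => c :=
  ⟨measurable_const, fun _ => ⟨|c|, fun _ _ => le_rfl⟩⟩

theorem lb_sum {ι : Type*} (s : Finset ι) {f : ι → E n → ℝ} (hf : ∀ i ∈ s, LB (f i)) :
    LB fun x => ∑ i ∈ s, f i x := by
  classical
  induction s using Finset.induction_on with
  | empty => simpa using lb_const (n := n) 0
  | insert i s hi ih =>
    simp only [Finset.sum_insert hi]
    exact lb_add (hf i (Finset.mem_insert_self i s))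
      (ih fun j hj => hf j (Finset.mem_insert_of_mem hj))

theorem lb_cont {f : E n → ℝ} (hf : Continuous f) : LB f := by
  refine ⟨hf.measurable, fun R => ?_⟩
  obtain ⟨B, hB⟩ := (isCompact_closedBall (0 : E n) R).exists_bound_of_continuousOn hf.continuousOn
  exact ⟨B, fun x hx => hB x (ball_subset_closedBall hx)⟩

theorem lb_ll {f : E n → ℝ} (hf : LocallyLipschitz f) : LB f := lb_cont hf.continuous

theorem lb_pd {f : E n → ℝ} (hf : LocallyLipschitz f) (i : Fin n) : LB (pd i f) := by
  refine ⟨pd_meas i f, fun R => ?_⟩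
  obtain ⟨K, hK⟩ := ll_lipOn hf R
  refine ⟨K * ‖(ei i : E n)‖, fun x hx => ?_⟩
  have h1 : ‖fderiv ℝ f x‖ ≤ K := norm_fderiv_le_of_lipschitzOn ℝ
    (mem_of_superset (isOpen_ball.mem_nhds hx) ball_subset_closedBall) hK
  exact (ContinuousLinearMap.le_opNorm _ _).trans
    (mul_le_mul_of_nonneg_right h1 (norm_nonneg _))

/-- `(P)` -/
theorem int_pd {f : E n → ℝ} (hf : LocallyLipschitz f) (hc : HasCompactSupport f) (i : Fin n) :
    ∫ x, pd i f x = 0 := by
  obtain ⟨K, hK⟩ := ll_lip hf hc
  have h1 := LipschitzWith.integral_lineDeriv_mul_eq (μ := (volume : Measure (E n)))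
    (LipschitzWith.const (1 : ℝ)) hK hc (-(ei i))
  rw [neg_neg] at h1
  have h2 : ∫ x, pd i f x = ∫ x, lineDeriv ℝ f x (ei i) * (fun _ => (1 : ℝ)) x := by
    refine integral_congr_ae ?_
    filter_upwards [ll_ae hf] with x hx
    rw [mul_one, hx.lineDeriv_eq_fderiv]
    rfl
  rw [h2, ← h1]
  have h3 : ∀ x : E n, lineDeriv ℝ (fun _ : E n => (1 : ℝ)) x (-(ei i)) = 0 := by
    intro x
    simp [lineDeriv]
  simp [h3]

theorem ae_lineDeriv {f : E n → ℝ} (hf : LocallyLipschitz f) (i : Fin n) :
    ∀ᵐ x, lineDeriv ℝ f x (ei i) = pd i f x := by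
  filter_upwards [ll_ae hf] with x hx
  rw [hx.lineDeriv_eq_fderiv]
  rfl

theorem lip_shift {g : E n → ℝ} {D : ℝ≥0} (hg : LipschitzWith D g) (a : E n) :
    LipschitzWith D fun x => g (x + a) :=
  LipschitzWith.of_dist_le_mul fun x y => by
    simpa using hg.dist_le_mul (x + a) (y + a)

/-- `(J)` for Lipschitz functions -/
theorem jac_lip {f g : E n → ℝ} {K D : ℝ≥0} (hf : LipschitzWith K f) (hfc : HasCompactSupport f)
    (hg : LipschitzWith D g) (hgc : HasCompactSupport g) (v w : E n) :
    ∫ x, lineDeriv ℝ g x w * lineDeriv ℝ f x v = -∫ x, lineDeriv ℝ f x (-w) * lineDeriv ℝ g x v := by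
  have hint : ∀ {h : E n → ℝ} {K : ℝ≥0}, LipschitzWith K h → HasCompactSupport h → ∀ v : E n,
      Integrable (fun x => lineDeriv ℝ h x v) := by
    intro h K hh hc v
    have h0 : HasCompactSupport fun x => lineDeriv ℝ h x v := by
      refine HasCompactSupport.intro hc.isCompact fun x hx => ?_
      have h1 : h =ᶠ[𝓝 x] fun _ => 0 := notMem_tsupport_iff_eventuallyEq.1 hx
      have h2 : lineDeriv ℝ h x v = lineDeriv ℝ (fun _ => (0 : ℝ)) x v := h1.lineDeriv_eq
      rw [h2]
      simp [lineDeriv]
    have h3 : MemLp (fun x => lineDeriv ℝ h x v) ⊤ := hh.memLp_lineDeriv v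
    have h4 := h3.locallyIntegrable le_top
    exact (integrableOn_iff_integrable_of_support_subset (subset_tsupport _)).1
      (h4.integrableOn_isCompact h0.isCompact)
  have A := LipschitzWith.integral_inv_smul_sub_mul_tendsto_integral_lineDeriv_mul
    (μ := (volume : Measure (E n))) hg (hint hf hfc v) w
  have B := LipschitzWith.integral_inv_smul_sub_mul_tendsto_integral_lineDeriv_mul
    (μ := (volume : Measure (E n))) hf (hint hg hgc v) (-w)
  have S : ∀ t : ℝ, ∫ x, (t⁻¹ • (g (x + t • w) - g x)) * lineDeriv ℝ f x v =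
      -∫ x, (t⁻¹ • (f (x + t • (-w)) - f x)) * lineDeriv ℝ g x v := by
    intro t
    have hgt : LipschitzWith D fun x => g (x + t • w) := lip_shift hg _
    have hgtc : HasCompactSupport fun x => g (x + t • w) :=
      hgc.comp_homeomorph (Homeomorph.addRight (t • w))
    have e1 := LipschitzWith.integral_lineDeriv_mul_eq (μ := (volume : Measure (E n)))
      hf hgt hgtc v
    have e2 := LipschitzWith.integral_lineDeriv_mul_eq (μ := (volume : Measure (E n)))
      hf hg hgc v
    have hl : ∀ x, lineDeriv ℝ (fun x => g (x + t • w)) x (-v) =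
        lineDeriv ℝ g (x + t • w) (-v) := by
      intro x
      simp only [lineDeriv]
      congr 1
      funext s
      rw [add_right_comm]
    have hnv : ∀ x, lineDeriv ℝ g x (-v) = -lineDeriv ℝ g x v := fun x => lineDeriv_neg
    have i1 : Integrable fun x => g (x + t • w) * lineDeriv ℝ f x v := by
      refine (hint hf hfc v).bdd_mul (c := ?_) hgt.continuous.aestronglyMeasurable ?_
      · exact (hgt.continuous.bounded_above_of_compact_support hgtc).choose
      · exact Eventually.of_forall
          (hgt.continuous.bounded_above_of_compact_support hgtc).choose_spec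
    have i2 : Integrable fun x => g x * lineDeriv ℝ f x v := by
      refine (hint hf hfc v).bdd_mul (c := ?_) hg.continuous.aestronglyMeasurable ?_
      · exact (hg.continuous.bounded_above_of_compact_support hgc).choose
      · exact Eventually.of_forall
          (hg.continuous.bounded_above_of_compact_support hgc).choose_spec
    have hft : LipschitzWith K fun x => f (x + t • (-w)) := lip_shift hf _
    have hftc : HasCompactSupport fun x => f (x + t • (-w)) :=
      hfc.comp_homeomorph (Homeomorph.addRight (t • (-w)))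
    have i3 : Integrable fun x => f (x + t • (-w)) * lineDeriv ℝ g x v := by
      refine (hint hg hgc v).bdd_mul (c := ?_) hft.continuous.aestronglyMeasurable ?_
      · exact (hft.continuous.bounded_above_of_compact_support hftc).choose
      · exact Eventually.of_forall
          (hft.continuous.bounded_above_of_compact_support hftc).choose_spec
    have i4 : Integrable fun x => f x * lineDeriv ℝ g x v := by
      refine (hint hg hgc v).bdd_mul (c := ?_) hf.continuous.aestronglyMeasurable ?_
      · exact (hf.continuous.bounded_above_of_compact_support hfc).choose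
      · exact Eventually.of_forall
          (hf.continuous.bounded_above_of_compact_support hfc).choose_spec
    have e3 : ∫ x, lineDeriv ℝ g (x + t • w) (-v) * f x =
        ∫ x, lineDeriv ℝ g x (-v) * f (x + t • (-w)) := by
      rw [← integral_add_right_eq_self _ (t • (-w))]
      simp
    simp only [hl] at e1
    rw [e3] at e1
    simp only [hnv] at e1 e2
    have L1 : ∫ x, (t⁻¹ • (g (x + t • w) - g x)) * lineDeriv ℝ f x v =
        t⁻¹ * ((∫ x, g (x + t • w) * lineDeriv ℝ f x v) - ∫ x, g x * lineDeriv ℝ f x v) := by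
      rw [← integral_sub i1 i2, ← integral_const_mul]
      refine integral_congr_ae (Eventually.of_forall fun x => ?_)
      simp only [smul_eq_mul]
      ring
    have L2 : ∫ x, (t⁻¹ • (f (x + t • (-w)) - f x)) * lineDeriv ℝ g x v =
        t⁻¹ * ((∫ x, f (x + t • (-w)) * lineDeriv ℝ g x v) - ∫ x, f x * lineDeriv ℝ g x v) := by
      rw [← integral_sub i3 i4, ← integral_const_mul]
      refine integral_congr_ae (Eventually.of_forall fun x => ?_)
      simp only [smul_eq_mul]
      ring
    have M1 : ∫ x, g (x + t • w) * lineDeriv ℝ f x v =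
        -∫ x, f (x + t • (-w)) * lineDeriv ℝ g x v := by
      rw [← integral_neg]
      have h1 : ∫ x, g (x + t • w) * lineDeriv ℝ f x v =
          ∫ x, lineDeriv ℝ f x v * g (x + t • w) :=
        integral_congr_ae (Eventually.of_forall fun x => mul_comm _ _)
      rw [h1, e1]
      exact integral_congr_ae (Eventually.of_forall fun x => by ring)
    have M2 : ∫ x, g x * lineDeriv ℝ f x v = -∫ x, f x * lineDeriv ℝ g x v := by
      rw [← integral_neg]
      have h1 : ∫ x, g x * lineDeriv ℝ f x v = ∫ x, lineDeriv ℝ f x v * g x :=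
        integral_congr_ae (Eventually.of_forall fun x => mul_comm _ _)
      rw [h1, e2]
      exact integral_congr_ae (Eventually.of_forall fun x => by ring)
    rw [L1, L2, M1, M2]
    ring
  simp only [S] at A
  exact tendsto_nhds_unique A B.neg

/-- `(J)` -/
theorem jac {f g : E n → ℝ} (hf : LocallyLipschitz f) (hg : LocallyLipschitz g)
    (hgc : HasCompactSupport g) (a b : Fin n) :
    ∫ x, pd a f x * pd b g x = ∫ x, pd b f x * pd a g x := by
  obtain ⟨R, hR⟩ := hgc.isCompact.isBounded.subset_closedBall 0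
  set R' : ℝ := max R 1 with hR'
  have hR0 : 0 < R' := lt_of_lt_of_le one_pos (le_max_right _ _)
  let χ : ContDiffBump (0 : E n) := ⟨R' + 1, R' + 2, by linarith, by linarith⟩
  have hχ : ContDiff ℝ 1 (χ : E n → ℝ) := χ.contDiff
  have hχc : HasCompactSupport (χ : E n → ℝ) := χ.hasCompactSupport
  set F : E n → ℝ := fun x => f x * χ x with hF
  have hFl : LocallyLipschitz F := ll_mul hf hχ.locallyLipschitz
  have hFc : HasCompactSupport F := hχc.mul_left
  obtain ⟨K, hK⟩ := ll_lip hFl hFc
  obtain ⟨D, hD⟩ := ll_lip hg hgc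
  have hloc : ∀ x i j, pd i f x * pd j g x = pd i F x * pd j g x := by
    intro x i j
    by_cases hx : x ∈ tsupport g
    · have h1 : x ∈ ball (0 : E n) (R' + 1) := by
        have h2 := hR hx
        rw [mem_closedBall] at h2
        rw [mem_ball]
        exact lt_of_le_of_lt (h2.trans (le_max_left _ _)) (by linarith)
      have h2 : F =ᶠ[𝓝 x] f := by
        filter_upwards [isOpen_ball.mem_nhds h1] with y hy
        have h3 : χ y = 1 := χ.one_of_mem_closedBall (ball_subset_closedBall hy)
        rw [hF]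
        simp only
        rw [h3, mul_one]
      rw [pd, pd, pd, h2.fderiv_eq]
    · have h1 : g =ᶠ[𝓝 x] fun _ => 0 := notMem_tsupport_iff_eventuallyEq.1 hx
      have h2 : pd j g x = 0 := by
        rw [pd, h1.fderiv_eq]
        simp
      rw [h2, mul_zero, mul_zero]
  have h1 := jac_lip hK hFc hD hgc (ei a) (ei b)
  have e1 : ∫ x, pd a f x * pd b g x = ∫ x, lineDeriv ℝ g x (ei b) * lineDeriv ℝ F x (ei a) := by
    refine integral_congr_ae ?_
    filter_upwards [ae_lineDeriv hg b, ae_lineDeriv hFl a] with x h2 h3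
    rw [h2, h3, hloc]
    exact mul_comm _ _
  have e2 : ∫ x, pd b f x * pd a g x = -∫ x, lineDeriv ℝ F x (-(ei b)) * lineDeriv ℝ g x (ei a) := by
    rw [← integral_neg]
    refine integral_congr_ae ?_
    filter_upwards [ae_lineDeriv hg a, ae_lineDeriv hFl b] with x h2 h3
    rw [lineDeriv_neg, h2, h3, hloc]
    ring
  rw [e1, e2, h1]

end Vale.Agent.P227.M.Key718
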