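import Vale.Agent.P227.M.Key.Pt

/-! # Pointwise algebra of the key identity: general `τ` -/

open Matrix Finset
open scoped MatrixOrder

namespace Vale.Agent.P227.M.Key718

variable {n : ℕ}

/-- change of frame in a contraction of two directions with two matrix indices -/
theorem contr (A β : Matrix (Fin n) (Fin n) ℝ) (hA : A * β = 1) (P Q : Fin n → Matrix (Fin n) (Fin n) ℝ) (R : Matrix (Fin n) (Fin n) ℝ) :
    ∑ a, ∑ c, (P c * R * Q a) a c =
      ∑ k, ∑ l, (β * ((∑ c, A c l • P c) * R * (∑ a, A a k • Q a)) * βᵀ) k l := by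
  have h1 : ∀ k l, (β * ((∑ c, A c l • P c) * R * (∑ a, A a k • Q a)) * βᵀ) k l =
      ∑ c, ∑ a, ∑ i, ∑ j, (A a k * β k i) * (A c l * β l j) * (P c * R * Q a) i j := by
    intro k l
    rw [Finset.sum_mul, Finset.sum_mul, Finset.mul_sum, Finset.sum_mul, Matrix.sum_apply]
    refine Finset.sum_congr rfl fun c _ => ?_
    rw [Finset.mul_sum, Finset.mul_sum, Finset.sum_mul, Matrix.sum_apply]
    refine Finset.sum_congr rfl fun a _ => ?_
    rw [Matrix.mul_apply, Finset.sum_comm]
    refine Finset.sum_congr rfl fun j _ => ?_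
    rw [Matrix.mul_apply, Finset.sum_mul]
    refine Finset.sum_congr rfl fun i _ => ?_
    rw [Matrix.smul_mul, Matrix.smul_mul, Matrix.mul_smul, Matrix.smul_apply, Matrix.smul_apply,
      Matrix.transpose_apply, smul_eq_mul, smul_eq_mul]
    ring
  simp only [h1]
  have h2 : ∀ a i, ∑ k, A a k * β k i = if a = i then 1 else 0 := by
    intro a i
    rw [← Matrix.mul_apply, hA, Matrix.one_apply]
  have h3 : ∑ k, ∑ l, ∑ c, ∑ a, ∑ i, ∑ j,
      (A a k * β k i) * (A c l * β l j) * (P c * R * Q a) i j =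
      ∑ c, ∑ a, ∑ i, ∑ j, (∑ k, A a k * β k i) * (∑ l, A c l * β l j) * (P c * R * Q a) i j := by
    simp only [Finset.sum_mul, Finset.mul_sum]
    rw [Finset.sum_congr rfl fun k _ => Finset.sum_comm]
    rw [Finset.sum_comm]
    refine Finset.sum_congr rfl fun c _ => ?_
    rw [Finset.sum_congr rfl fun k _ => Finset.sum_comm]
    rw [Finset.sum_comm]
    refine Finset.sum_congr rfl fun a _ => ?_
    rw [Finset.sum_congr rfl fun k _ => Finset.sum_comm]
    rw [Finset.sum_comm]
    refine Finset.sum_congr rfl fun i _ => ?_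
    rw [Finset.sum_congr rfl fun k _ => Finset.sum_comm]
    rw [Finset.sum_comm]
    refine Finset.sum_congr rfl fun j _ => ?_
    rw [Finset.sum_comm]
  rw [h3]
  simp only [h2]
  simp only [ite_mul, zero_mul, one_mul]
  rw [Finset.sum_comm]
  refine Finset.sum_congr rfl fun a _ => Finset.sum_congr rfl fun c _ => ?_
  simp

/-- the pointwise inequality `X ≥ 0` -/
theorem X_nonneg (τ N : Matrix (Fin n) (Fin n) ℝ) (hτ : τ.PosDef) (hN : Nᵀ = N) (dτ dN : Fin n → Matrix (Fin n) (Fin n) ℝ)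
    (hdτ : ∀ c, (dτ c)ᵀ = dτ c)
    (hS2 : ∀ a b c, ∑ d, τ c d * dτ d a b = ∑ d, τ a d * dτ d c b)
    (hdN : ∀ c, (dN c)ᵀ = dN c) (hdN2 : ∀ a b c, dN c a b = dN a c b) :
    0 ≤ ∑ a, ∑ c, (dτ c * (N * τ) * (dN a * τ + N * dτ a)
      - dτ c * (dN a * τ + N * dτ a) * (N * τ)
      + 2 • (τ * (dN c * τ + N * dτ c) * (dN a * τ + N * dτ a))) a c := by
  obtain ⟨B, hB⟩ := CStarAlgebra.nonneg_iff_eq_star_mul_self.1 hτ.posSemidef.nonneg
  rw [Matrix.star_eq_conjTranspose, Matrix.conjTranspose_eq_transpose_of_trivial] at hB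
  set A : Matrix (Fin n) (Fin n) ℝ := Bᵀ with hAdef
  have hτA : τ = A * Aᵀ := by rw [hB, hAdef, Matrix.transpose_transpose]
  have hdet : IsUnit A.det := by
    have h1 : τ.det ≠ 0 := hτ.det_pos.ne'
    rw [hτA, Matrix.det_mul] at h1
    exact (left_ne_zero_of_mul h1).isUnit
  set β : Matrix (Fin n) (Fin n) ℝ := A⁻¹ with hβdef
  have hAβ : A * β = 1 := Matrix.mul_nonsing_inv A hdet
  have hβA : β * A = 1 := Matrix.nonsing_inv_mul A hdet
  have hAtβt : Aᵀ * βᵀ = 1 := by rw [← Matrix.transpose_mul, hβA, Matrix.transpose_one]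
  have hβtAt : βᵀ * Aᵀ = 1 := by rw [← Matrix.transpose_mul, hAβ, Matrix.transpose_one]
  -- hatted objects
  set D : Fin n → Matrix (Fin n) (Fin n) ℝ := fun l => ∑ c, A c l • dτ c with hD
  set G : Fin n → Matrix (Fin n) (Fin n) ℝ := fun l => ∑ c, A c l • dN c with hG
  set t : Fin n → Matrix (Fin n) (Fin n) ℝ := fun l => β * D l * βᵀ with ht
  set f : Fin n → Matrix (Fin n) (Fin n) ℝ := fun l => Aᵀ * G l * A with hf
  set m : Matrix (Fin n) (Fin n) ℝ := Aᵀ * N * A with hm
  have hDt : ∀ l, D l = A * t l * Aᵀ := by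
    intro l
    rw [ht]
    simp only
    calc D l = (A * β) * D l * (βᵀ * Aᵀ) := by rw [hAβ, hβtAt, Matrix.one_mul, Matrix.mul_one]
      _ = A * (β * D l * βᵀ) * Aᵀ := by simp only [Matrix.mul_assoc]
  have hGf : ∀ l, G l = βᵀ * f l * β := by
    intro l
    rw [hf]
    simp only
    calc G l = (βᵀ * Aᵀ) * G l * (A * β) := by rw [hAβ, hβtAt, Matrix.one_mul, Matrix.mul_one]
      _ = βᵀ * (Aᵀ * G l * A) * β := by simp only [Matrix.mul_assoc]
  have hNm : N = βᵀ * m * β := by
    rw [hm]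
    calc N = (βᵀ * Aᵀ) * N * (A * β) := by rw [hAβ, hβtAt, Matrix.one_mul, Matrix.mul_one]
      _ = βᵀ * (Aᵀ * N * A) * β := by simp only [Matrix.mul_assoc]
  set w : Fin n → Matrix (Fin n) (Fin n) ℝ := fun l => f l + m * t l with hw
  have hU : N * τ = βᵀ * m * Aᵀ := by
    rw [hNm, hτA]
    calc βᵀ * m * β * (A * Aᵀ) = βᵀ * m * (β * A) * Aᵀ := by simp only [Matrix.mul_assoc]
      _ = βᵀ * m * Aᵀ := by rw [hβA, Matrix.mul_one]
  have hY : ∀ l, G l * τ + N * D l = βᵀ * w l * Aᵀ := by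
    intro l
    have h1 : G l * τ = βᵀ * f l * Aᵀ := by
      rw [hGf, hτA]
      calc βᵀ * f l * β * (A * Aᵀ) = βᵀ * f l * (β * A) * Aᵀ := by simp only [Matrix.mul_assoc]
        _ = βᵀ * f l * Aᵀ := by rw [hβA, Matrix.mul_one]
    have h2 : N * D l = βᵀ * (m * t l) * Aᵀ := by
      rw [hDt, hNm]
      calc βᵀ * m * β * (A * t l * Aᵀ) = βᵀ * m * (β * A) * (t l * Aᵀ) := by
            simp only [Matrix.mul_assoc]
        _ = βᵀ * (m * t l) * Aᵀ := by rw [hβA, Matrix.mul_one]; simp only [Matrix.mul_assoc]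
    rw [h1, h2, hw]
    simp only
    rw [Matrix.mul_add, Matrix.add_mul]
  have hsumY : ∀ l, ∑ c, A c l • (dN c * τ + N * dτ c) = βᵀ * w l * Aᵀ := by
    intro l
    rw [← hY]
    simp only [hG, hD, Finset.sum_mul, Finset.mul_sum, smul_add, Finset.sum_add_distrib,
      Matrix.smul_mul, Matrix.mul_smul]
  -- the three contractions
  have c1 := contr A β hAβ dτ (fun a => dN a * τ + N * dτ a) (N * τ)
  have c2 := contr A β hAβ dτ (fun a => (dN a * τ + N * dτ a) * (N * τ)) 1
  have c3 := contr A β hAβ (fun c => τ * (dN c * τ + N * dτ c)) (fun a => dN a * τ + N * dτ a) 1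
  have s1 : ∀ k l, β * ((∑ c, A c l • dτ c) * (N * τ) *
      (∑ a, A a k • (dN a * τ + N * dτ a))) * βᵀ = t l * m * w k := by
    intro k l
    rw [hsumY, hU]
    have h1 : ∑ c, A c l • dτ c = A * t l * Aᵀ := hDt l
    rw [h1]
    calc β * (A * t l * Aᵀ * (βᵀ * m * Aᵀ) * (βᵀ * w k * Aᵀ)) * βᵀ =
          (β * A) * t l * (Aᵀ * βᵀ) * m * (Aᵀ * βᵀ) * w k * (Aᵀ * βᵀ) := by
            simp only [Matrix.mul_assoc]
      _ = t l * m * w k := by
        rw [hβA, hAtβt, Matrix.one_mul, Matrix.mul_one, Matrix.mul_one, Matrix.mul_one]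
  have s2 : ∀ k l, β * ((∑ c, A c l • dτ c) * 1 *
      (∑ a, A a k • ((dN a * τ + N * dτ a) * (N * τ)))) * βᵀ = t l * w k * m := by
    intro k l
    have h0 : ∑ a, A a k • ((dN a * τ + N * dτ a) * (N * τ)) =
        (∑ a, A a k • (dN a * τ + N * dτ a)) * (N * τ) := by
      rw [Finset.sum_mul]
      exact Finset.sum_congr rfl fun a _ => (Matrix.smul_mul _ _ _).symm
    rw [h0, hsumY, hU]
    have h1 : ∑ c, A c l • dτ c = A * t l * Aᵀ := hDt l
    rw [h1, Matrix.mul_one]
    calc β * (A * t l * Aᵀ * (βᵀ * w k * Aᵀ * (βᵀ * m * Aᵀ))) * βᵀ =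
          (β * A) * t l * (Aᵀ * βᵀ) * w k * (Aᵀ * βᵀ) * m * (Aᵀ * βᵀ) := by
            simp only [Matrix.mul_assoc]
      _ = t l * w k * m := by
        rw [hβA, hAtβt, Matrix.one_mul, Matrix.mul_one, Matrix.mul_one, Matrix.mul_one]
  have s3 : ∀ k l, β * ((∑ c, A c l • (τ * (dN c * τ + N * dτ c))) * 1 *
      (∑ a, A a k • (dN a * τ + N * dτ a))) * βᵀ = w l * w k := by
    intro k l
    have h0 : ∑ c, A c l • (τ * (dN c * τ + N * dτ c)) =
        τ * (∑ c, A c l • (dN c * τ + N * dτ c)) := by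
      rw [Finset.mul_sum]
      exact Finset.sum_congr rfl fun a _ => (Matrix.mul_smul _ _ _).symm
    rw [h0, hsumY, hsumY, hτA, Matrix.mul_one]
    calc β * (A * Aᵀ * (βᵀ * w l * Aᵀ) * (βᵀ * w k * Aᵀ)) * βᵀ =
          (β * A) * (Aᵀ * βᵀ) * w l * (Aᵀ * βᵀ) * w k * (Aᵀ * βᵀ) := by
            simp only [Matrix.mul_assoc]
      _ = w l * w k := by
        rw [hβA, hAtβt, Matrix.one_mul, Matrix.one_mul, Matrix.mul_one, Matrix.mul_one]
  simp only [s1] at c1
  simp only [s2] at c2
  simp only [Matrix.mul_one] at c2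
  simp only [s3] at c3
  simp only [Matrix.mul_one] at c3
  have tot : ∑ a, ∑ c, (dτ c * (N * τ) * (dN a * τ + N * dτ a)
      - dτ c * (dN a * τ + N * dτ a) * (N * τ)
      + 2 • (τ * (dN c * τ + N * dτ c) * (dN a * τ + N * dτ a))) a c =
      ∑ k, ∑ l, ((t l * m * w k) k l - (t l * w k * m) k l + 2 * (w l * w k) k l) := by
    have h1 : ∀ a c, (dτ c * (N * τ) * (dN a * τ + N * dτ a)
      - dτ c * (dN a * τ + N * dτ a) * (N * τ)
      + 2 • (τ * (dN c * τ + N * dτ c) * (dN a * τ + N * dτ a))) a c =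
      (dτ c * (N * τ) * (dN a * τ + N * dτ a)) a c
      - (dτ c * ((dN a * τ + N * dτ a) * (N * τ))) a c
      + 2 * (τ * (dN c * τ + N * dτ c) * (dN a * τ + N * dτ a)) a c := by
      intro a c
      rw [Matrix.add_apply, Matrix.sub_apply, Matrix.smul_apply, Matrix.mul_assoc (dτ c)
        (dN a * τ + N * dτ a) (N * τ)]
      simp
    simp only [h1, Finset.sum_add_distrib, Finset.sum_sub_distrib, ← Finset.mul_sum]
    rw [c1, c2, c3]
  rw [tot]
  -- symmetry of t and f
  have hAτ : A = τ * βᵀ := by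
    rw [hτA]
    calc A = A * (Aᵀ * βᵀ) := by rw [hAtβt, Matrix.mul_one]
      _ = A * Aᵀ * βᵀ := by rw [Matrix.mul_assoc]
  have hτs : ∀ i j, τ i j = τ j i := by
    intro i j
    have h := hτ.1
    have h2 : τᵀ = τ := by
      rw [← Matrix.conjTranspose_eq_transpose_of_trivial]; exact h
    calc τ i j = τᵀ j i := rfl
      _ = τ j i := by rw [h2]
  have tform : ∀ l i j, t l i j =
      ∑ d, ∑ a, ∑ b, β l d * β i a * β j b * ∑ c, τ d c * dτ c a b := by
    intro l i j
    have h1 : t l i j = ∑ c, ∑ a, ∑ b, A c l * (β i a * β j b * dτ c a b) := by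
      rw [ht]
      simp only [hD]
      rw [Finset.mul_sum, Finset.sum_mul, Matrix.sum_apply]
      refine Finset.sum_congr rfl fun c _ => ?_
      rw [Matrix.mul_smul, Matrix.smul_mul, Matrix.smul_apply, smul_eq_mul, Matrix.mul_apply,
        Finset.mul_sum, Finset.sum_comm]
      refine Finset.sum_congr rfl fun b _ => ?_
      rw [Matrix.mul_apply, Finset.sum_mul, Finset.mul_sum]
      refine Finset.sum_congr rfl fun a _ => ?_
      rw [Matrix.transpose_apply]
      ring
    have h2 : ∀ c, A c l = ∑ d, τ d c * β l d := by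
      intro c
      conv_lhs => rw [hAτ]
      rw [Matrix.mul_apply]
      refine Finset.sum_congr rfl fun d _ => ?_
      rw [Matrix.transpose_apply, hτs]
    rw [h1]
    simp only [h2, Finset.sum_mul, Finset.mul_sum]
    rw [Finset.sum_congr rfl fun c _ => Finset.sum_congr rfl fun a _ => Finset.sum_comm]
    rw [Finset.sum_congr rfl fun c _ => Finset.sum_comm]
    rw [Finset.sum_comm]
    refine Finset.sum_congr rfl fun d _ => ?_
    rw [Finset.sum_comm]
    refine Finset.sum_congr rfl fun a _ => ?_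
    rw [Finset.sum_comm]
    refine Finset.sum_congr rfl fun b _ => Finset.sum_congr rfl fun c _ => ?_
    ring
  have ts1 : ∀ l i j, t l i j = t l j i := by
    intro l i j
    rw [tform, tform]
    refine Finset.sum_congr rfl fun d _ => ?_
    rw [Finset.sum_comm]
    refine Finset.sum_congr rfl fun b _ => Finset.sum_congr rfl fun a _ => ?_
    have h : ∀ c, dτ c a b = dτ c b a := fun c => by
      conv_lhs => rw [← hdτ c]
      rfl
    simp only [h]
    ring
  have ts2 : ∀ l i j, t l i j = t i l j := by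
    intro l i j
    rw [tform, tform, Finset.sum_comm]
    refine Finset.sum_congr rfl fun a _ => Finset.sum_congr rfl fun d _ =>
      Finset.sum_congr rfl fun b _ => ?_
    rw [hS2 a b d]
    ring
  have fform : ∀ l i j, f l i j = ∑ c, ∑ a, ∑ b, A c l * A a i * A b j * dN c a b := by
    intro l i j
    rw [hf]
    simp only [hG]
    rw [Finset.mul_sum, Finset.sum_mul, Matrix.sum_apply]
    refine Finset.sum_congr rfl fun c _ => ?_
    rw [Matrix.mul_smul, Matrix.smul_mul, Matrix.smul_apply, smul_eq_mul, Matrix.mul_apply,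
      Finset.mul_sum, Finset.sum_comm]
    refine Finset.sum_congr rfl fun b _ => ?_
    rw [Matrix.mul_apply, Finset.sum_mul, Finset.mul_sum]
    refine Finset.sum_congr rfl fun a _ => ?_
    rw [Matrix.transpose_apply]
    ring
  have fs1 : ∀ l i j, f l i j = f l j i := by
    intro l i j
    rw [fform, fform]
    refine Finset.sum_congr rfl fun c _ => ?_
    rw [Finset.sum_comm]
    refine Finset.sum_congr rfl fun b _ => Finset.sum_congr rfl fun a _ => ?_
    have h : dN c a b = dN c b a := by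
      conv_lhs => rw [← hdN c]
      rfl
    rw [h]
    ring
  have fs2 : ∀ l i j, f l i j = f i l j := by
    intro l i j
    rw [fform, fform, Finset.sum_comm]
    refine Finset.sum_congr rfl fun a _ => Finset.sum_congr rfl fun c _ =>
      Finset.sum_congr rfl fun b _ => ?_
    rw [hdN2 a b c]
    ring
  have hms : ∀ i j, m i j = m j i := by
    intro i j
    have h : mᵀ = m := by
      rw [hm, Matrix.transpose_mul, Matrix.transpose_mul, Matrix.transpose_transpose, hN,
        Matrix.mul_assoc]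
    calc m i j = mᵀ j i := rfl
      _ = m j i := by rw [h]
  have main := frame_nonneg (fun l i j => t l i j) (fun l i j => f l i j) (fun i j => m i j) hms
    ts1 ts2 fs1 fs2 (fun l i j => w l i j) (fun l i j => by
      simp only [hw, Matrix.add_apply, Matrix.mul_apply])
  refine main.trans_eq (Finset.sum_congr rfl fun k _ => Finset.sum_congr rfl fun l _ => ?_)
  congr 1
  · congr 1
    · rw [Matrix.mul_apply, Finset.sum_comm]
      refine Finset.sum_congr rfl fun j _ => ?_
      rw [Matrix.mul_apply, Finset.sum_mul]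
    · rw [Matrix.mul_apply, Finset.sum_comm]
      refine Finset.sum_congr rfl fun j _ => ?_
      rw [Matrix.mul_apply, Finset.sum_mul]

end Vale.Agent.P227.M.Key718
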