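import Vale.Agent.P227.M.Key.Calc

/-! # Weighted integrals over a ball and the commutator identity -/

open MeasureTheory Set Filter Metric
open scoped Topology NNReal

namespace Vale.Agent.P227.M.Key718

variable {n : ℕ}

/-- weighted integral over a ball -/
noncomputable def EE (V : E n → ℝ) (R : ℝ) (g : E n → ℝ) : ℝ :=
  ∫ x in ball (0 : E n) R, g x * Real.exp (-V x)

section lin
variable {V : E n → ℝ} (hV : Continuous V) (R : ℝ)
include hV

theorem ee_int {g : E n → ℝ} (hg : LB g) :
    IntegrableOn (fun x => g x * Real.exp (-V x)) (ball 0 R) := by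
  have h1 : Continuous fun x => Real.exp (-V x) := by fun_prop
  have h2 := lb_mul hg (lb_cont h1)
  obtain ⟨B, hB⟩ := h2.2 R
  exact Measure.integrableOn_of_bounded (M := B) measure_ball_lt_top.ne h2.1.aestronglyMeasurable
    (ae_restrict_of_forall_mem measurableSet_ball hB)

theorem ee_add {f g : E n → ℝ} (hf : LB f) (hg : LB g) :
    EE V R (fun x => f x + g x) = EE V R f + EE V R g := by
  rw [EE, EE, EE, ← integral_add (ee_int hV R hf) (ee_int hV R hg)]
  refine integral_congr_ae (Eventually.of_forall fun x => ?_)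
  simp only
  ring

theorem ee_sub {f g : E n → ℝ} (hf : LB f) (hg : LB g) :
    EE V R (fun x => f x - g x) = EE V R f - EE V R g := by
  rw [EE, EE, EE, ← integral_sub (ee_int hV R hf) (ee_int hV R hg)]
  refine integral_congr_ae (Eventually.of_forall fun x => ?_)
  simp only
  ring

omit hV in
theorem ee_smul (c : ℝ) (f : E n → ℝ) :
    EE V R (fun x => c * f x) = c * EE V R f := by
  rw [EE, EE, ← integral_const_mul]
  refine integral_congr_ae (Eventually.of_forall fun x => ?_)
  simp only
  ring

omit hV in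
theorem ee_zero : EE V R (fun _ => 0) = 0 := by
  rw [EE]
  simp

theorem ee_sum {ι : Type*} (s : Finset ι) {f : ι → E n → ℝ} (hf : ∀ i ∈ s, LB (f i)) :
    EE V R (fun x => ∑ i ∈ s, f i x) = ∑ i ∈ s, EE V R (f i) := by
  classical
  induction s using Finset.induction_on with
  | empty => simpa using ee_zero (V := V) R
  | insert i s hi ih =>
    have h1 := lb_sum s fun j hj => hf j (Finset.mem_insert_of_mem hj)
    simp only [Finset.sum_insert hi]
    rw [ee_add hV R (hf i (Finset.mem_insert_self i s)) h1,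
      ih fun j hj => hf j (Finset.mem_insert_of_mem hj)]

omit hV in
theorem ee_congr {f g : E n → ℝ} (h : ∀ᵐ x, f x = g x) : EE V R f = EE V R g := by
  rw [EE, EE]
  refine setIntegral_congr_ae measurableSet_ball ?_
  filter_upwards [h] with x hx _
  rw [hx]

omit hV in
theorem ee_nonneg {f : E n → ℝ} (h : ∀ᵐ x, 0 ≤ f x) : 0 ≤ EE V R f := by
  rw [EE]
  refine setIntegral_nonneg_of_ae ?_
  filter_upwards [h] with x hx
  exact mul_nonneg hx (Real.exp_pos _).le

omit hV in
theorem ee_full {f : E n → ℝ} (h : ∀ x, x ∉ ball (0 : E n) R → f x = 0) :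
    ∫ x, f x * Real.exp (-V x) = EE V R f := by
  rw [EE]
  refine (setIntegral_eq_integral_of_forall_compl_eq_zero fun x hx => ?_).symm
  rw [h x hx, zero_mul]

end lin

theorem pd_congr {f g : E n → ℝ} {x : E n} (h : f =ᶠ[𝓝 x] g) (i : Fin n) : pd i f x = pd i g x := by
  rw [pd, pd, h.fderiv_eq]

theorem pd_mul {f g : E n → ℝ} {x : E n} (hf : DifferentiableAt ℝ f x)
    (hg : DifferentiableAt ℝ g x) (i : Fin n) :
    pd i (fun z => f z * g z) x = pd i f x * g x + f x * pd i g x := by
  rw [pd, fderiv_fun_mul hf hg, pd, pd]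
  simp only [ContinuousLinearMap.add_apply, ContinuousLinearMap.smul_apply, smul_eq_mul]
  ring

theorem pd_sum {ι : Type*} (s : Finset ι) {f : ι → E n → ℝ} {x : E n}
    (hf : ∀ j ∈ s, DifferentiableAt ℝ (f j) x) (i : Fin n) :
    pd i (fun z => ∑ j ∈ s, f j z) x = ∑ j ∈ s, pd i (f j) x := by
  rw [pd, fderiv_fun_sum hf]
  simp [pd]

theorem pd_add {f g : E n → ℝ} {x : E n} (hf : DifferentiableAt ℝ f x)
    (hg : DifferentiableAt ℝ g x) (i : Fin n) :
    pd i (fun z => f z + g z) x = pd i f x + pd i g x := by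
  rw [pd, fderiv_fun_add hf hg, pd, pd]
  rfl

theorem pd_sub {f g : E n → ℝ} {x : E n} (hf : DifferentiableAt ℝ f x)
    (hg : DifferentiableAt ℝ g x) (i : Fin n) :
    pd i (fun z => f z - g z) x = pd i f x - pd i g x := by
  rw [pd, fderiv_fun_sub hf hg, pd, pd]
  rfl

/-- a function with support in the ball -/
theorem zero_of_sub {f : E n → ℝ} {R : ℝ} (hs : tsupport f ⊆ ball (0 : E n) R) {x : E n}
    (hx : x ∉ ball (0 : E n) R) : f x = 0 ∧ ∀ i, pd i f x = 0 := by
  have h1 : f =ᶠ[𝓝 x] fun _ => 0 := notMem_tsupport_iff_eventuallyEq.1 fun h => hx (hs h)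
  refine ⟨h1.self_of_nhds, fun i => ?_⟩
  rw [pd_congr h1, pd]
  simp

theorem cs_of_sub {f : E n → ℝ} {R : ℝ} (hs : tsupport f ⊆ ball (0 : E n) R) :
    HasCompactSupport f :=
  (isCompact_closedBall (0 : E n) R).of_isClosed_subset (isClosed_tsupport f)
    (hs.trans ball_subset_closedBall)

section main
variable {V : E n → ℝ} (hV : ContDiff ℝ (⊤ : ℕ∞) V) {R : ℝ}
include hV

theorem v_pd (a : Fin n) : ContDiff ℝ (⊤ : ℕ∞) (pd a V) := by
  have h1 : ContDiff ℝ (⊤ : ℕ∞) (fderiv ℝ V) := hV.fderiv_right (by simp)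
  exact h1.clm_apply contDiff_const

theorem pd_exp {f : E n → ℝ} {x : E n} (hf : DifferentiableAt ℝ f x) (i : Fin n) :
    pd i (fun z => f z * Real.exp (-V z)) x = (pd i f x - pd i V x * f x) * Real.exp (-V x) := by
  have h1 : DifferentiableAt ℝ V x := (hV.differentiable (by simp)) x
  have h2 : HasFDerivAt (fun z => Real.exp (-V z)) (Real.exp (-V x) • -(fderiv ℝ V x)) x :=
    h1.hasFDerivAt.neg.exp
  rw [pd_mul hf h2.differentiableAt, pd, pd, pd, h2.fderiv]
  simp only [ContinuousLinearMap.smul_apply, ContinuousLinearMap.neg_apply, smul_eq_mul]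
  ring

theorem exp_ll : LocallyLipschitz fun z => Real.exp (-V z) := by
  have h : ContDiff ℝ 1 fun z => Real.exp (-V z) := (hV.of_le (by simp)).neg.exp
  exact h.locallyLipschitz

/-- `(P)` with weight -/
theorem ee_pd {f : E n → ℝ} (hf : LocallyLipschitz f) (hs : tsupport f ⊆ ball (0 : E n) R)
    (i : Fin n) : EE V R (fun x => pd i f x) = EE V R fun x => pd i V x * f x := by
  have hVc := hV.continuous
  have hG : LocallyLipschitz fun z => f z * Real.exp (-V z) := ll_mul hf (exp_ll hV)
  have h1 := int_pd hG ((cs_of_sub hs).mul_right) i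
  have h2 : ∫ x, (pd i f x - pd i V x * f x) * Real.exp (-V x) = 0 := by
    rw [← h1]
    refine integral_congr_ae ?_
    filter_upwards [ll_ae hf] with x hx
    rw [pd_exp hV hx]
  rw [ee_full R fun x hx => by
    rw [(zero_of_sub hs hx).1, (zero_of_sub hs hx).2 i]; ring,
    ee_sub hVc R (lb_pd hf i) (lb_mul (lb_cont (v_pd hV i).continuous) (lb_ll hf))] at h2
  linarith

/-- `(J)` with weight -/
theorem ee_jac {f g : E n → ℝ} (hf : LocallyLipschitz f) (hg : LocallyLipschitz g)
    (hs : tsupport g ⊆ ball (0 : E n) R) (a b : Fin n) :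
    EE V R (fun x => pd a f x * (pd b g x - pd b V x * g x)) =
      EE V R fun x => pd b f x * (pd a g x - pd a V x * g x) := by
  have hG : LocallyLipschitz fun z => g z * Real.exp (-V z) := ll_mul hg (exp_ll hV)
  have h1 := jac hf hG ((cs_of_sub hs).mul_right) a b
  have h2 : ∀ i j, ∫ x, pd i f x * pd j (fun z => g z * Real.exp (-V z)) x =
      EE V R fun x => pd i f x * (pd j g x - pd j V x * g x) := by
    intro i j
    rw [← ee_full R fun x hx => by
      rw [(zero_of_sub hs hx).1, (zero_of_sub hs hx).2 j]; ring]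
    refine integral_congr_ae ?_
    filter_upwards [ll_ae hg] with x hx
    rw [pd_exp hV hx]
    ring
  rw [← h2, ← h2, h1]

/-- the commutator identity -/
theorem ee_comm {f g : E n → ℝ} (hf : LocallyLipschitz f) (hg : LocallyLipschitz g)
    (hs : tsupport g ⊆ ball (0 : E n) R) (a c : Fin n) :
    EE V R (fun x => pd c (pd a V) x * (f x * g x)) =
      EE V R (fun x => (pd a V x * f x - pd a f x) * (pd c V x * g x - pd c g x)) -
        EE V R fun x => pd c f x * pd a g x := by
  have hVc := hV.continuous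
  have lV : ∀ i, LB (pd i V) := fun i => lb_cont (v_pd hV i).continuous
  have lf := lb_ll hf
  have lg := lb_ll hg
  have lpf := fun i => lb_pd hf i
  have lpg := fun i => lb_pd hg i
  have lH : LB (pd c (pd a V)) := lb_cont (v_pd (v_pd hV a) c).continuous
  have llV : ∀ i, LocallyLipschitz (pd i V) := fun i =>
    ((v_pd hV i).of_le (by simp) : ContDiff ℝ 1 (pd i V)).locallyLipschitz
  -- monomials
  have m1 : LB fun x => pd a V x * pd c V x * (f x * g x) :=
    lb_mul (lb_mul (lV a) (lV c)) (lb_mul lf lg)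
  have m2 : LB fun x => pd a V x * f x * pd c g x := lb_mul (lb_mul (lV a) lf) (lpg c)
  have m3 : LB fun x => pd a f x * (pd c V x * g x) := lb_mul (lpf a) (lb_mul (lV c) lg)
  have m4 : LB fun x => pd a f x * pd c g x := lb_mul (lpf a) (lpg c)
  have m5 : LB fun x => pd c f x * pd a g x := lb_mul (lpf c) (lpg a)
  have m6 : LB fun x => pd c f x * (pd a V x * g x) := lb_mul (lpf c) (lb_mul (lV a) lg)
  have mH : LB fun x => pd c (pd a V) x * (f x * g x) := lb_mul lH (lb_mul lf lg)
  have j := ee_jac hV hf hg hs a c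
  have j1 : EE V R (fun x => pd a f x * (pd c g x - pd c V x * g x)) =
      EE V R (fun x => pd a f x * pd c g x) - EE V R fun x => pd a f x * (pd c V x * g x) := by
    rw [← ee_sub hVc R m4 m3]
    exact ee_congr R (Eventually.of_forall fun x => by ring)
  have j2 : EE V R (fun x => pd c f x * (pd a g x - pd a V x * g x)) =
      EE V R (fun x => pd c f x * pd a g x) - EE V R fun x => pd c f x * (pd a V x * g x) := by
    rw [← ee_sub hVc R m5 m6]
    exact ee_congr R (Eventually.of_forall fun x => by ring)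
  rw [j1, j2] at j
  have hs' : tsupport (fun x => pd a V x * (f x * g x)) ⊆ ball (0 : E n) R := by
    refine (tsupport_mul_subset_right (f := pd a V) (g := fun x => f x * g x)).trans ?_
    exact (tsupport_mul_subset_right (f := f) (g := g)).trans hs
  have q := ee_pd hV (ll_mul (llV a) (ll_mul hf hg)) hs' c
  have q1 : EE V R (fun x => pd c (fun z => pd a V z * (f z * g z)) x) =
      EE V R (fun x => pd c (pd a V) x * (f x * g x)) +
        EE V R (fun x => pd c f x * (pd a V x * g x)) +
        EE V R (fun x => pd a V x * f x * pd c g x) := by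
    rw [← ee_add hVc R mH m6, ← ee_add hVc R (lb_add mH m6) m2]
    refine ee_congr R ?_
    filter_upwards [ll_ae hf, ll_ae hg] with x h1 h2
    have h3 : DifferentiableAt ℝ (pd a V) x := ((v_pd hV a).differentiable (by simp)) x
    rw [pd_mul h3 (h1.fun_mul h2), pd_mul h1 h2]
    ring
  have q2 : EE V R (fun x => pd c V x * (pd a V x * (f x * g x))) =
      EE V R fun x => pd a V x * pd c V x * (f x * g x) :=
    ee_congr R (Eventually.of_forall fun x => by ring)
  rw [q1, q2] at q
  have r : EE V R (fun x => (pd a V x * f x - pd a f x) * (pd c V x * g x - pd c g x)) =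
      EE V R (fun x => pd a V x * pd c V x * (f x * g x)) -
        EE V R (fun x => pd a V x * f x * pd c g x) -
        EE V R (fun x => pd a f x * (pd c V x * g x)) +
        EE V R fun x => pd a f x * pd c g x := by
    rw [← ee_sub hVc R m1 m2, ← ee_sub hVc R (lb_sub m1 m2) m3,
      ← ee_add hVc R (lb_sub (lb_sub m1 m2) m3) m4]
    exact ee_congr R (Eventually.of_forall fun x => by ring)
  rw [r]
  linarith

end main

end Vale.Agent.P227.M.Key718
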