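import Vale.Agent.P227.M.ID.Div
import Vale.Agent.P227.M.ID.Reg169
import Vale.Agent.P227.M.Key.Pt2
import Vale.Agent.P227.M.Key.Wt

/-! # Pointwise facts at the points of differentiability -/

open MeasureTheory Set Filter Metric Matrix
open scoped Topology NNReal MatrixOrder

namespace Vale.Agent.P227.M.Key718

variable {n : ℕ} {ψ V : E n → ℝ} {c C M : ℝ}

/-- `U = N τ` -/
noncomputable def tU (ψ F : E n → ℝ) (b c : Fin n) (x : E n) : ℝ := ∑ d, hess F x b d * tau ψ x d c

/-- `U²` -/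
noncomputable def tU2 (ψ F : E n → ℝ) (b c : Fin n) (x : E n) : ℝ :=
  ∑ e, tU ψ F b e x * tU ψ F e c x

/-- derivative of `τ` as a matrix -/
noncomputable def dT (ψ : E n → ℝ) (x : E n) (a : Fin n) : Matrix (Fin n) (Fin n) ℝ :=
  fun i j => pd a (fun y => tau ψ y i j) x

/-- derivative of `D²F` as a matrix -/
noncomputable def dH (F : E n → ℝ) (x : E n) (a : Fin n) : Matrix (Fin n) (Fin n) ℝ :=
  fun i j => pd a (fun y => hess F y i j) x

theorem tU_eq (ψ F : E n → ℝ) (b c : Fin n) (x : E n) :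
    tU ψ F b c x = (hess F x * tau ψ x) b c := by
  rw [tU, Matrix.mul_apply]

theorem rKK_eq (ψ F : E n → ℝ) (a b : Fin n) (x : E n) :
    rKK ψ F x a b = (tau ψ x * (hess F x * tau ψ x)) a b := by
  rw [rKK, Matrix.mul_apply]
  refine Finset.sum_congr rfl fun i _ => ?_
  rw [Matrix.mul_apply, Finset.mul_sum]

theorem tU2_eq (ψ F : E n → ℝ) (b c : Fin n) (x : E n) :
    tU2 ψ F b c x = ((hess F x * tau ψ x) * (hess F x * tau ψ x)) b c := by
  rw [tU2, Matrix.mul_apply]
  refine Finset.sum_congr rfl fun i _ => ?_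
  rw [tU_eq, tU_eq]

theorem hF_diff {F : E n → ℝ} (hF : ContDiff ℝ (⊤ : ℕ∞) F) (i j : Fin n) (x : E n) :
    DifferentiableAt ℝ (fun y => hess F y i j) x := rad_smooth_diff (rad_smooth_hess hF i j) x

theorem tU_diff {F : E n → ℝ} (hF : ContDiff ℝ (⊤ : ℕ∞) F) {x : E n} (hx : Good ψ x)
    (b c : Fin n) : DifferentiableAt ℝ (tU ψ F b c) x := by
  unfold tU
  exact DifferentiableAt.fun_sum fun d _ => (hF_diff hF b d x).fun_mul (hx.2 d c)

theorem tU_pd {F : E n → ℝ} (hF : ContDiff ℝ (⊤ : ℕ∞) F) {x : E n} (hx : Good ψ x)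
    (a b c : Fin n) :
    pd a (tU ψ F b c) x = (dH F x a * tau ψ x + hess F x * dT ψ x a) b c := by
  have h1 : pd a (tU ψ F b c) x =
      ∑ d, (pd a (fun y => hess F y b d) x * tau ψ x d c +
        hess F x b d * pd a (fun y => tau ψ y d c) x) := by
    unfold tU
    rw [Key718.pd_sum Finset.univ (fun d _ => (hF_diff hF b d x).fun_mul (hx.2 d c))]
    refine Finset.sum_congr rfl fun d _ => ?_
    rw [Key718.pd_mul (hF_diff hF b d x) (hx.2 d c)]
  rw [h1, Matrix.add_apply, Matrix.mul_apply, Matrix.mul_apply, ← Finset.sum_add_distrib]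
  rfl

theorem rKK_pd' (h : MM ψ V c C M) {F : E n → ℝ} (hF : ContDiff ℝ (⊤ : ℕ∞) F) {x : E n}
    (hx : Good ψ x) (e a b : Fin n) :
    pd e (fun y => rKK ψ F y a b) x = (dT ψ x e * (hess F x * tau ψ x) +
      tau ψ x * (dH F x e * tau ψ x + hess F x * dT ψ x e)) a b := by
  rw [rKK_pd h hF hx, Matrix.add_apply, Matrix.mul_apply, Matrix.mul_apply,
    ← Finset.sum_add_distrib]
  refine Finset.sum_congr rfl fun k _ => ?_
  rw [Matrix.add_apply, Matrix.mul_apply, Matrix.mul_apply, Matrix.mul_apply,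
    ← Finset.sum_add_distrib, Finset.mul_sum, Finset.mul_sum, ← Finset.sum_add_distrib]
  rfl

theorem tU2_pd {F : E n → ℝ} (hF : ContDiff ℝ (⊤ : ℕ∞) F) {x : E n} (hx : Good ψ x)
    (a b c : Fin n) :
    pd a (tU2 ψ F b c) x =
      ((dH F x a * tau ψ x + hess F x * dT ψ x a) * (hess F x * tau ψ x) +
        (hess F x * tau ψ x) * (dH F x a * tau ψ x + hess F x * dT ψ x a)) b c := by
  have h1 : pd a (tU2 ψ F b c) x =
      ∑ e, (pd a (tU ψ F b e) x * tU ψ F e c x + tU ψ F b e x * pd a (tU ψ F e c) x) := by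
    unfold tU2
    rw [Key718.pd_sum Finset.univ
      (fun e _ => (tU_diff hF hx b e).fun_mul (tU_diff hF hx e c))]
    refine Finset.sum_congr rfl fun d _ => ?_
    rw [Key718.pd_mul (tU_diff hF hx b d) (tU_diff hF hx d c)]
  rw [h1, Matrix.add_apply, Matrix.mul_apply, Matrix.mul_apply, ← Finset.sum_add_distrib]
  refine Finset.sum_congr rfl fun e _ => ?_
  rw [tU_pd hF hx, tU_pd hF hx, tU_eq, tU_eq]

theorem dH_symm {F : E n → ℝ} (hF : ContDiff ℝ (⊤ : ℕ∞) F) (x : E n) (a i j : Fin n) :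
    dH F x a i j = dH F x a j i := by
  unfold dH
  congr 1
  funext y
  exact rad_hess_symm (rad_smooth_C2 hF) y i j

theorem dH_symm2 {F : E n → ℝ} (hF : ContDiff ℝ (⊤ : ℕ∞) F) (x : E n) (a i j : Fin n) :
    dH F x a i j = dH F x i a j :=
  rad_third (rad_smooth_C2 hF) (fun i j => hF_diff hF i j x) a i j

theorem dT_symm (h : MM ψ V c C M) (x : E n) (a i j : Fin n) :
    dT ψ x a i j = dT ψ x a j i := by
  unfold dT
  congr 1
  funext y
  exact rad_tau_symm h y i j

/-- the bracket is nonnegative -/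
theorem ptX (h : MM ψ V c C M) {F : E n → ℝ} (hF : ContDiff ℝ (⊤ : ℕ∞) F) {x : E n}
    (hx : Good ψ x) :
    0 ≤ 2 * (∑ a, ∑ b, ∑ e, pd e (fun y => rKK ψ F y a b) x * pd a (tU ψ F b e) x) -
      ∑ a, ∑ b, ∑ e, pd e (fun y => tau ψ y a b) x * pd a (tU2 ψ F b e) x := by
  have h1 := X_nonneg (tau ψ x) (hess F x) (ID169.tau_posDef h x)
    (by ext i j; exact rad_hess_symm (rad_smooth_C2 hF) x j i) (dT ψ x) (dH F x)
    (fun a => by ext i j; exact dT_symm h x a j i)
    (fun a b d => rad_T h hx d a b)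
    (fun a => by ext i j; exact dH_symm hF x a j i)
    (fun a b d => dH_symm2 hF x d a b)
  refine h1.trans_eq ?_
  have e1 : ∑ a, ∑ b, ∑ e, pd e (fun y => rKK ψ F y a b) x * pd a (tU ψ F b e) x =
      ∑ a, ∑ e, ((dT ψ x e * (hess F x * tau ψ x) +
      tau ψ x * (dH F x e * tau ψ x + hess F x * dT ψ x e)) *
        (dH F x a * tau ψ x + hess F x * dT ψ x a)) a e := by
    refine Finset.sum_congr rfl fun a _ => ?_
    rw [Finset.sum_comm]
    refine Finset.sum_congr rfl fun e _ => ?_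
    rw [Matrix.mul_apply]
    refine Finset.sum_congr rfl fun b _ => ?_
    rw [rKK_pd' h hF hx, tU_pd hF hx]
  have e2 : ∑ a, ∑ b, ∑ e, pd e (fun y => tau ψ y a b) x * pd a (tU2 ψ F b e) x =
      ∑ a, ∑ e, (dT ψ x e * ((dH F x a * tau ψ x + hess F x * dT ψ x a) * (hess F x * tau ψ x) +
        (hess F x * tau ψ x) * (dH F x a * tau ψ x + hess F x * dT ψ x a))) a e := by
    refine Finset.sum_congr rfl fun a _ => ?_
    rw [Finset.sum_comm]
    refine Finset.sum_congr rfl fun e _ => ?_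
    rw [Matrix.mul_apply]
    refine Finset.sum_congr rfl fun b _ => ?_
    rw [tU2_pd hF hx]
    rfl
  rw [e1, e2, Finset.mul_sum, ← Finset.sum_sub_distrib]
  refine Finset.sum_congr rfl fun a _ => ?_
  rw [Finset.mul_sum, ← Finset.sum_sub_distrib]
  refine Finset.sum_congr rfl fun e _ => ?_
  have h2 : ∀ (P Q R S T : Matrix (Fin n) (Fin n) ℝ),
      (P * Q * R - P * R * Q + 2 • (S * T * R)) a e =
        2 * ((P * Q + S * T) * R) a e - (P * (R * Q + Q * R)) a e := by
    intro P Q R S T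
    have h3 : P * Q * R - P * R * Q + 2 • (S * T * R) =
        2 • ((P * Q + S * T) * R) - P * (R * Q + Q * R) := by
      rw [Matrix.add_mul, Matrix.mul_add, two_smul, two_smul]
      simp only [Matrix.mul_assoc]
      abel
    rw [h3, Matrix.sub_apply, Matrix.smul_apply]
    simp
  exact h2 _ _ _ _ _

theorem trYY_nonneg {τ Y : Matrix (Fin n) (Fin n) ℝ} (hτ : τ.PosDef) (hY : (τ * Y)ᵀ = τ * Y) :
    0 ≤ (Y * Y).trace := by
  obtain ⟨B, hB⟩ := CStarAlgebra.nonneg_iff_eq_star_mul_self.1 hτ.inv.posSemidef.nonneg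
  rw [Matrix.star_eq_conjTranspose, Matrix.conjTranspose_eq_transpose_of_trivial] at hB
  have hdet : IsUnit τ.det := hτ.det_pos.ne'.isUnit
  set S := τ * Y with hS
  have h1 : Y = Bᵀ * B * S := by
    rw [← hB, hS, ← Matrix.mul_assoc, Matrix.nonsing_inv_mul _ hdet, Matrix.one_mul]
  set Q := B * S * Bᵀ with hQ
  have h2 : (Y * Y).trace = (Q * Q).trace := by
    rw [h1, hQ]
    calc (Bᵀ * B * S * (Bᵀ * B * S)).trace = (Bᵀ * (B * S * Bᵀ * B * S)).trace := by
          simp only [Matrix.mul_assoc]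
      _ = ((B * S * Bᵀ * B * S) * Bᵀ).trace := Matrix.trace_mul_comm _ _
      _ = (B * S * Bᵀ * (B * S * Bᵀ)).trace := by simp only [Matrix.mul_assoc]
  have h3 : Qᵀ = Q := by
    rw [hQ, Matrix.transpose_mul, Matrix.transpose_mul, Matrix.transpose_transpose, hY]
    exact (Matrix.mul_assoc _ _ _).symm
  rw [h2, Matrix.trace]
  refine Finset.sum_nonneg fun i _ => ?_
  rw [Matrix.diag_apply, Matrix.mul_apply]
  refine Finset.sum_nonneg fun j _ => ?_
  have h4 : Q j i = Q i j := by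
    conv_lhs => rw [← h3]
    rfl
  rw [h4]
  exact mul_self_nonneg _

theorem fld_diff (ψ : E n → ℝ) {u : E n → ℝ} (hu : ContDiff ℝ (⊤ : ℕ∞) u) {x : E n}
    (hx : Good ψ x) (b : Fin n) : DifferentiableAt ℝ (fld ψ u b) x := by
  unfold fld
  exact DifferentiableAt.fun_sum fun d _ =>
    (hx.2 b d).fun_mul (rad_smooth_diff (rad_smooth_pd hu d) x)

theorem fld_pd {u : E n → ℝ} (hu : ContDiff ℝ (⊤ : ℕ∞) u) {x : E n} (hx : Good ψ x)
    (a b : Fin n) :
    pd a (fld ψ u b) x = ∑ d, (pd a (fun y => tau ψ y b d) x * pd d u x +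
      tau ψ x b d * hess u x a d) := by
  unfold fld
  rw [Key718.pd_sum Finset.univ (fun d _ => (hx.2 b d).fun_mul
    (rad_smooth_diff (rad_smooth_pd hu d) x))]
  refine Finset.sum_congr rfl fun d _ => ?_
  rw [Key718.pd_mul (hx.2 b d) (rad_smooth_diff (rad_smooth_pd hu d) x)]
  rfl

/-- `2 tr (J U) ≤ tr J² + tr U²` -/
theorem ptJ (h : MM ψ V c C M) {F u : E n → ℝ} (hF : ContDiff ℝ (⊤ : ℕ∞) F)
    (hu : ContDiff ℝ (⊤ : ℕ∞) u) {x : E n} (hx : Good ψ x) :
    2 * (∑ b, ∑ e, pd e (fld ψ u b) x * tU ψ F b e x) ≤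
      (∑ b, ∑ e, pd e (fld ψ u b) x * pd b (fld ψ u e) x) + ∑ b, tU2 ψ F b b x := by
  set J : Matrix (Fin n) (Fin n) ℝ := fun e b => pd e (fld ψ u b) x with hJ
  set U : Matrix (Fin n) (Fin n) ℝ := hess F x * tau ψ x with hU
  have e1 : ∑ b, ∑ e, pd e (fld ψ u b) x * tU ψ F b e x = (J * U).trace := by
    rw [Matrix.trace, Finset.sum_comm]
    refine Finset.sum_congr rfl fun e _ => ?_
    rw [Matrix.diag_apply, Matrix.mul_apply]
    refine Finset.sum_congr rfl fun b _ => ?_
    rw [tU_eq]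
  have e2 : ∑ b, ∑ e, pd e (fld ψ u b) x * pd b (fld ψ u e) x = (J * J).trace := by
    rw [Matrix.trace, Finset.sum_comm]
    refine Finset.sum_congr rfl fun e _ => ?_
    rw [Matrix.diag_apply, Matrix.mul_apply]
  have e3 : ∑ b, tU2 ψ F b b x = (U * U).trace := by
    rw [Matrix.trace]
    refine Finset.sum_congr rfl fun b _ => ?_
    rw [Matrix.diag_apply, tU2_eq]
  have hNs : (hess F x)ᵀ = hess F x := by
    ext i j; exact rad_hess_symm (rad_smooth_C2 hF) x j i
  have hτs : (tau ψ x)ᵀ = tau ψ x := by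
    ext i j; exact rad_tau_symm h x j i
  have s1 : (tau ψ x * U)ᵀ = tau ψ x * U := by
    rw [hU, Matrix.transpose_mul, Matrix.transpose_mul, hNs, hτs, Matrix.mul_assoc]
  have s2 : (tau ψ x * J)ᵀ = tau ψ x * J := by
    have hform : ∀ a b, (tau ψ x * J) a b =
        (∑ d, (∑ e, tau ψ x a e * pd e (fun y => tau ψ y b d) x) * pd d u x) +
          ∑ e, ∑ d, tau ψ x a e * tau ψ x b d * hess u x e d := by
      intro a b
      rw [Matrix.mul_apply]
      have g1 : ∀ e, tau ψ x a e * J e b =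
          (∑ d, tau ψ x a e * pd e (fun y => tau ψ y b d) x * pd d u x) +
            ∑ d, tau ψ x a e * tau ψ x b d * hess u x e d := by
        intro e
        rw [hJ]
        simp only
        rw [fld_pd hu hx, Finset.mul_sum, ← Finset.sum_add_distrib]
        refine Finset.sum_congr rfl fun d _ => ?_
        ring
      simp only [g1, Finset.sum_add_distrib]
      congr 1
      rw [Finset.sum_comm]
      refine Finset.sum_congr rfl fun d _ => ?_
      rw [Finset.sum_mul]
    ext a b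
    rw [Matrix.transpose_apply, hform, hform]
    congr 1
    · refine Finset.sum_congr rfl fun d _ => ?_
      rw [rad_T h hx b a d]
    · rw [Finset.sum_comm]
      refine Finset.sum_congr rfl fun d _ => Finset.sum_congr rfl fun e _ => ?_
      rw [rad_hess_symm (rad_smooth_C2 hu) x e d]
      ring
  have h1 := trYY_nonneg (Y := J - U) (ID169.tau_posDef h x) (by
    rw [Matrix.mul_sub, Matrix.transpose_sub, s1, s2])
  have h2 : ((J - U) * (J - U)).trace = (J * J).trace - 2 * (J * U).trace + (U * U).trace := by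
    rw [Matrix.sub_mul, Matrix.mul_sub, Matrix.mul_sub, Matrix.trace_sub, Matrix.trace_sub,
      Matrix.trace_sub, Matrix.trace_mul_comm U J]
    ring
  rw [h2] at h1
  rw [e1, e2, e3]
  linarith

/-- `div_μ^* (N τ) = - L ∇F` -/
theorem ptU (h : MM ψ V c C M) {F : E n → ℝ} (hF : ContDiff ℝ (⊤ : ℕ∞) F) {x : E n}
    (hx : Good ψ x) (b : Fin n) :
    ∑ e, (pd e V x * tU ψ F b e x - pd e (tU ψ F b e) x) = -Lop ψ (pd b F) x := by
  have hd : ∀ d, ∑ e, (pd e V x * tau ψ x d e - pd e (fun y => tau ψ y d e) x) = x d := by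
    intro d
    have h1 := rad_div h hx d
    have h2 : ∀ e, pd e V x * tau ψ x d e - pd e (fun y => tau ψ y d e) x =
        -(pd e (fun y => tau ψ y e d) x - tau ψ x e d * pd e V x) := by
      intro e
      have h3 : (fun y => tau ψ y d e) = fun y => tau ψ y e d :=
        funext fun y => rad_tau_symm h y d e
      rw [h3, rad_tau_symm h x d e]
      ring
    rw [Finset.sum_congr rfl fun e _ => h2 e, Finset.sum_neg_distrib, h1, neg_neg]
  have h1 : ∀ e, pd e V x * tU ψ F b e x - pd e (tU ψ F b e) x =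
      (∑ d, hess F x b d * (pd e V x * tau ψ x d e - pd e (fun y => tau ψ y d e) x)) -
        ∑ d, tau ψ x e d * pd e (fun y => hess F y b d) x := by
    intro e
    rw [tU_pd hF hx, tU, Matrix.add_apply, Matrix.mul_apply, Matrix.mul_apply, Finset.mul_sum,
      ← Finset.sum_add_distrib, ← Finset.sum_sub_distrib, ← Finset.sum_sub_distrib]
    refine Finset.sum_congr rfl fun d _ => ?_
    simp only [dH, dT]
    rw [rad_tau_symm h x e d]
    ring
  rw [Finset.sum_congr rfl fun e _ => h1 e, Finset.sum_sub_distrib, Finset.sum_comm]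
  have h2 : ∑ d, ∑ e, hess F x b d * (pd e V x * tau ψ x d e - pd e (fun y => tau ψ y d e) x) =
      ∑ d, hess F x b d * x d := by
    refine Finset.sum_congr rfl fun d _ => ?_
    rw [← Finset.mul_sum, hd]
  rw [h2, Lop]
  have h3 : ∀ i j, hess (pd b F) x i j = pd i (fun y => hess F y b j) x := by
    intro i j
    have h4 : pd j (pd b F) = fun y => hess F y b j :=
      funext fun y => rad_hess_symm (rad_smooth_C2 hF) y j b
    change pd i (pd j (pd b F)) x = _
    rw [h4]
  have h4 : ∀ i, pd i (pd b F) x = hess F x b i := fun i =>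
    rad_hess_symm (rad_smooth_C2 hF) x i b
  simp only [h3, h4]
  rw [neg_sub]
  congr 1
  exact Finset.sum_congr rfl fun d _ => mul_comm _ _

/-- `div_μ^* s = - L u` -/
theorem ptS (h : MM ψ V c C M) {u : E n → ℝ} (hu : ContDiff ℝ (⊤ : ℕ∞) u) {x : E n}
    (hx : Good ψ x) :
    ∑ a, (pd a V x * fld ψ u a x - pd a (fld ψ u a) x) = -Lop ψ u x := by
  have h1 : ∀ a, pd a V x * fld ψ u a x - pd a (fld ψ u a) x =
      (∑ d, pd d u x * (pd a V x * tau ψ x a d - pd a (fun y => tau ψ y a d) x)) -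
        ∑ d, tau ψ x a d * hess u x a d := by
    intro a
    rw [fld_pd hu hx, fld, Finset.mul_sum, ← Finset.sum_sub_distrib, ← Finset.sum_sub_distrib]
    refine Finset.sum_congr rfl fun d _ => ?_
    ring
  rw [Finset.sum_congr rfl fun a _ => h1 a, Finset.sum_sub_distrib, Finset.sum_comm]
  have h2 : ∑ d, ∑ a, pd d u x * (pd a V x * tau ψ x a d - pd a (fun y => tau ψ y a d) x) =
      ∑ d, pd d u x * x d := by
    refine Finset.sum_congr rfl fun d _ => ?_
    rw [← Finset.mul_sum]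
    congr 1
    have h3 := rad_div h hx d
    have h4 : ∀ e, pd e V x * tau ψ x e d - pd e (fun y => tau ψ y e d) x =
        -(pd e (fun y => tau ψ y e d) x - tau ψ x e d * pd e V x) := fun e => by ring
    rw [Finset.sum_congr rfl fun e _ => h4 e, Finset.sum_neg_distrib, h3, neg_neg]
  rw [h2, Lop, neg_sub]
  congr 1
  exact Finset.sum_congr rfl fun d _ => mul_comm _ _

theorem ptK (h : MM ψ V c C M) {F : E n → ℝ} (hF : ContDiff ℝ (⊤ : ℕ∞) F) {x : E n}
    (hx : Good ψ x) (b : Fin n) :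
    ∑ a, (pd a V x * rKK ψ F x a b - pd a (fun y => rKK ψ F y a b) x) =
      -fld ψ (fun z => Lop ψ F z + F z) b x := by
  rw [← rad_divK h hF hx b, ← Finset.sum_neg_distrib]
  exact Finset.sum_congr rfl fun a _ => by ring

theorem ptT (h : MM ψ V c C M) {x : E n} (hx : Good ψ x) (b : Fin n) :
    ∑ a, (pd a V x * tau ψ x a b - pd a (fun y => tau ψ y a b) x) = x b := by
  have h3 := rad_div h hx b
  have h4 : ∀ e, pd e V x * tau ψ x e b - pd e (fun y => tau ψ y e b) x =
      -(pd e (fun y => tau ψ y e b) x - tau ψ x e b * pd e V x) := fun e => by ring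
  rw [Finset.sum_congr rfl fun e _ => h4 e, Finset.sum_neg_distrib, h3, neg_neg]

theorem ptH {F u : E n → ℝ} (hF : ContDiff ℝ (⊤ : ℕ∞) F)
    (hu : ContDiff ℝ (⊤ : ℕ∞) u) {x : E n} (hx : Good ψ x) (b : Fin n) :
    fld ψ (fun z => Lop ψ F z + F z + u z) b x =
      fld ψ (fun z => Lop ψ F z + F z) b x + fld ψ u b x := by
  have d1 : DifferentiableAt ℝ (fun z => Lop ψ F z + F z) x := by
    unfold Lop
    refine DifferentiableAt.fun_add (DifferentiableAt.fun_sub ?_ ?_) (rad_smooth_diff hF x)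
    · exact DifferentiableAt.fun_sum fun i _ => DifferentiableAt.fun_sum fun j _ =>
        (hx.2 i j).fun_mul (hF_diff hF i j x)
    · exact DifferentiableAt.fun_sum fun i _ =>
        (rad_diff_coord i x).fun_mul (rad_smooth_diff (rad_smooth_pd hF i) x)
  unfold fld
  rw [← Finset.sum_add_distrib]
  refine Finset.sum_congr rfl fun e _ => ?_
  rw [Key718.pd_add d1 (rad_smooth_diff hu x)]
  ring

end Vale.Agent.P227.M.Key718
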