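import Vale.Agent.P227.M.Key.Loc

/-! # `StmtKey` -/

open MeasureTheory Set Filter Metric Matrix
open scoped Topology NNReal

namespace Vale.Agent.P227.M.Key718

variable {n : ℕ} {ψ V : E n → ℝ} {c C M : ℝ}

theorem pdc718 (a i : Fin n) (x : E n) : pd a (fun y : E n => y i) x = if i = a then 1 else 0 := by
  unfold pd
  have h : (fun y : E n => y i) = (EuclideanSpace.proj i : E n →L[ℝ] ℝ) := rfl
  rw [h, ContinuousLinearMap.fderiv]
  simp [ei]

theorem smooth_ll {f : E n → ℝ} (hf : ContDiff ℝ (⊤ : ℕ∞) f) : LocallyLipschitz f :=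
  (hf.of_le (by simp) : ContDiff ℝ 1 f).locallyLipschitz

theorem tau_ll (h : MM ψ V c C M) (i j : Fin n) : LocallyLipschitz fun x => tau ψ x i j :=
  (rad_lipw fun x y => rad_tau_lip h x y i j).locallyLipschitz

theorem hess_ll {F : E n → ℝ} (hF : ContDiff ℝ (⊤ : ℕ∞) F) (i j : Fin n) :
    LocallyLipschitz fun x => hess F x i j := smooth_ll (rad_smooth_hess hF i j)

theorem tU_ll (h : MM ψ V c C M) {F : E n → ℝ} (hF : ContDiff ℝ (⊤ : ℕ∞) F) (i j : Fin n) :
    LocallyLipschitz (tU ψ F i j) := by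
  unfold tU
  exact ll_sum _ fun d _ => ll_mul (hess_ll hF i d) (tau_ll h d j)

theorem tU2_ll (h : MM ψ V c C M) {F : E n → ℝ} (hF : ContDiff ℝ (⊤ : ℕ∞) F) (i j : Fin n) :
    LocallyLipschitz (tU2 ψ F i j) := by
  unfold tU2
  exact ll_sum _ fun d _ => ll_mul (tU_ll h hF i d) (tU_ll h hF d j)

theorem rKK_ll (h : MM ψ V c C M) {F : E n → ℝ} (hF : ContDiff ℝ (⊤ : ℕ∞) F) (i j : Fin n) :
    LocallyLipschitz fun x => rKK ψ F x i j := by
  unfold rKK
  exact ll_sum _ fun d _ => ll_sum _ fun e _ =>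
    ll_mul (tau_ll h i d) (ll_mul (hess_ll hF d e) (tau_ll h e j))

theorem fld_ll (h : MM ψ V c C M) {u : E n → ℝ} (hu : ContDiff ℝ (⊤ : ℕ∞) u) (b : Fin n) :
    LocallyLipschitz (fld ψ u b) := by
  unfold fld
  exact ll_sum _ fun d _ => ll_mul (tau_ll h b d) (smooth_ll (rad_smooth_pd hu d))

theorem coord_ll (i : Fin n) : LocallyLipschitz fun x : E n => x i := by
  have h : ContDiff ℝ 1 fun x : E n => x i := by fun_prop
  exact h.locallyLipschitz

theorem Lop_ll (h : MM ψ V c C M) {F : E n → ℝ} (hF : ContDiff ℝ (⊤ : ℕ∞) F) :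
    LocallyLipschitz (Lop ψ F) := by
  unfold Lop
  refine ll_sub ?_ ?_
  · exact ll_sum _ fun i _ => ll_sum _ fun j _ => ll_mul (tau_ll h i j) (hess_ll hF i j)
  · exact ll_sum _ fun i _ => ll_mul (coord_ll i) (smooth_ll (rad_smooth_pd hF i))

/-! ### supports -/

theorem ts_of_zero {f F : E n → ℝ} {R : ℝ} (hR : tsupport F ⊆ ball (0 : E n) R)
    (hf : ∀ x, x ∉ tsupport F → f x = 0) : tsupport f ⊆ ball (0 : E n) R := by
  refine Subset.trans ?_ hR
  refine closure_minimal (fun x hx => ?_) (isClosed_tsupport F)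
  by_contra h
  exact hx (hf x h)

theorem pd_zero {F : E n → ℝ} {x : E n} (hx : x ∉ tsupport F) (i : Fin n) : pd i F x = 0 := by
  have h1 : F =ᶠ[𝓝 x] fun _ => 0 := notMem_tsupport_iff_eventuallyEq.1 hx
  rw [pd_congr h1, pd]
  simp

theorem hess_zero {F : E n → ℝ} {x : E n} (hx : x ∉ tsupport F) (i j : Fin n) :
    hess F x i j = 0 := by
  have h1 : pd j F =ᶠ[𝓝 x] fun _ => 0 := by
    have h2 : (tsupport F)ᶜ ∈ 𝓝 x := (isClosed_tsupport F).isOpen_compl.mem_nhds hx
    filter_upwards [h2] with y hy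
    exact pd_zero hy j
  change pd i (pd j F) x = 0
  rw [pd_congr h1, pd]
  simp

theorem third_zero {F : E n → ℝ} {x : E n} (hx : x ∉ tsupport F) (b i j : Fin n) :
    hess (pd b F) x i j = 0 := by
  refine hess_zero (fun h => hx ?_) i j
  refine closure_minimal (fun y hy => ?_) (isClosed_tsupport F) h
  by_contra h2
  exact hy (pd_zero h2 b)

theorem tU_zero {F : E n → ℝ} {x : E n} (hx : x ∉ tsupport F) (i j : Fin n) :
    tU ψ F i j x = 0 := by
  rw [tU]
  exact Finset.sum_eq_zero fun d _ => by rw [hess_zero hx, zero_mul]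

theorem tU2_zero {F : E n → ℝ} {x : E n} (hx : x ∉ tsupport F) (i j : Fin n) :
    tU2 ψ F i j x = 0 := by
  rw [tU2]
  exact Finset.sum_eq_zero fun d _ => by rw [tU_zero hx, zero_mul]

theorem fld_zero {F : E n → ℝ} {x : E n} (hx : x ∉ tsupport F) (i : Fin n) :
    fld ψ F i x = 0 := by
  rw [fld]
  exact Finset.sum_eq_zero fun d _ => by rw [pd_zero hx, mul_zero]

theorem Lop_zero {F : E n → ℝ} {x : E n} (hx : x ∉ tsupport F) : Lop ψ F x = 0 := by
  rw [Lop]
  have h1 : ∑ i, ∑ j, tau ψ x i j * hess F x i j = 0 :=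
    Finset.sum_eq_zero fun i _ => Finset.sum_eq_zero fun j _ => by rw [hess_zero hx, mul_zero]
  have h2 : ∑ i, x i * pd i F x = 0 :=
    Finset.sum_eq_zero fun i _ => by rw [pd_zero hx, mul_zero]
  rw [h1, h2, sub_zero]

theorem Lopd_zero {F : E n → ℝ} {x : E n} (hx : x ∉ tsupport F) (b : Fin n) :
    Lop ψ (pd b F) x = 0 := by
  refine Lop_zero fun h => hx ?_
  refine closure_minimal (fun y hy => ?_) (isClosed_tsupport F) h
  by_contra h2
  exact hy (pd_zero h2 b)

/-! ### summed integral identities -/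

theorem ee_sum3 (hV : Continuous V) (R : ℝ) {ι : Type*} [Fintype ι]
    {T : Fin n → ι → Fin n → E n → ℝ} (hT : ∀ a b e, LB (T a b e)) :
    EE V R (fun x => ∑ a, ∑ b, ∑ e, T a b e x) = ∑ a, ∑ b, ∑ e, EE V R (T a b e) := by
  have h2 : ∀ a b, LB fun x => ∑ e, T a b e x := fun a b => lb_sum _ fun e _ => hT a b e
  have h1 : ∀ a, LB fun x => ∑ b, ∑ e, T a b e x := fun a => lb_sum _ fun b _ => h2 a b
  rw [ee_sum hV R Finset.univ fun a _ => h1 a]
  refine Finset.sum_congr rfl fun a _ => ?_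
  rw [ee_sum hV R Finset.univ fun b _ => h2 a b]
  refine Finset.sum_congr rfl fun b _ => ?_
  rw [ee_sum hV R Finset.univ fun e _ => hT a b e]

theorem sumK (hV : ContDiff ℝ (⊤ : ℕ∞) V) {R : ℝ} {ι : Type*} [Fintype ι]
    {P : Fin n → ι → E n → ℝ} {U : ι → Fin n → E n → ℝ}
    (hP : ∀ a b, LocallyLipschitz (P a b)) (hU : ∀ b e, LocallyLipschitz (U b e))
    (hs : ∀ b e, tsupport (U b e) ⊆ ball (0 : E n) R) :
    EE V R (fun x => ∑ a, ∑ b, ∑ e, pd e (pd a V) x * (P a b x * U b e x)) =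
      EE V R (fun x => ∑ b, (∑ a, (pd a V x * P a b x - pd a (P a b) x)) *
        (∑ e, (pd e V x * U b e x - pd e (U b e) x))) -
      EE V R fun x => ∑ a, ∑ b, ∑ e, pd e (P a b) x * pd a (U b e) x := by
  have hVc := hV.continuous
  have lV : ∀ i, LB (pd i V) := fun i => lb_cont (v_pd hV i).continuous
  have l1 : ∀ a b e, LB fun x => pd e (pd a V) x * (P a b x * U b e x) := fun a b e =>
    lb_mul (lb_cont (v_pd (v_pd hV a) e).continuous) (lb_mul (lb_ll (hP a b)) (lb_ll (hU b e)))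
  have l2 : ∀ a b e, LB fun x => (pd a V x * P a b x - pd a (P a b) x) *
      (pd e V x * U b e x - pd e (U b e) x) := fun a b e =>
    lb_mul (lb_sub (lb_mul (lV a) (lb_ll (hP a b))) (lb_pd (hP a b) a))
      (lb_sub (lb_mul (lV e) (lb_ll (hU b e))) (lb_pd (hU b e) e))
  have l3 : ∀ a b e, LB fun x => pd e (P a b) x * pd a (U b e) x := fun a b e =>
    lb_mul (lb_pd (hP a b) e) (lb_pd (hU b e) a)
  have e2 : EE V R (fun x => ∑ b, (∑ a, (pd a V x * P a b x - pd a (P a b) x)) *
        (∑ e, (pd e V x * U b e x - pd e (U b e) x))) =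
      EE V R fun x => ∑ a, ∑ b, ∑ e, (pd a V x * P a b x - pd a (P a b) x) *
        (pd e V x * U b e x - pd e (U b e) x) := by
    refine ee_congr R (Eventually.of_forall fun x => ?_)
    rw [Finset.sum_comm]
    refine Finset.sum_congr rfl fun b _ => ?_
    rw [Finset.sum_mul_sum]
  rw [e2, ee_sum3 hVc R l1, ee_sum3 hVc R l2, ee_sum3 hVc R l3, ← Finset.sum_sub_distrib]
  refine Finset.sum_congr rfl fun a _ => ?_
  rw [← Finset.sum_sub_distrib]
  refine Finset.sum_congr rfl fun b _ => ?_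
  rw [← Finset.sum_sub_distrib]
  refine Finset.sum_congr rfl fun e _ => ?_
  exact ee_comm hV (hP a b) (hU b e) (hs b e) a e

theorem sumP (hV : ContDiff ℝ (⊤ : ℕ∞) V) {R : ℝ} {f : Fin n → E n → ℝ}
    {U : Fin n → Fin n → E n → ℝ} (hf : ∀ b, LocallyLipschitz (f b))
    (hU : ∀ b e, LocallyLipschitz (U b e)) (hs : ∀ b e, tsupport (U b e) ⊆ ball (0 : E n) R) :
    EE V R (fun x => ∑ b, f b x * (∑ e, (pd e V x * U b e x - pd e (U b e) x))) =
      EE V R fun x => ∑ b, ∑ e, pd e (f b) x * U b e x := by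
  have hVc := hV.continuous
  have lV : ∀ i, LB (pd i V) := fun i => lb_cont (v_pd hV i).continuous
  have l1 : ∀ b e, LB fun x => f b x * (pd e V x * U b e x - pd e (U b e) x) := fun b e =>
    lb_mul (lb_ll (hf b)) (lb_sub (lb_mul (lV e) (lb_ll (hU b e))) (lb_pd (hU b e) e))
  have l2 : ∀ b e, LB fun x => pd e (f b) x * U b e x := fun b e =>
    lb_mul (lb_pd (hf b) e) (lb_ll (hU b e))
  have e1 : EE V R (fun x => ∑ b, f b x * (∑ e, (pd e V x * U b e x - pd e (U b e) x))) =
      EE V R fun x => ∑ b, ∑ e, f b x * (pd e V x * U b e x - pd e (U b e) x) := by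
    refine ee_congr R (Eventually.of_forall fun x => ?_)
    exact Finset.sum_congr rfl fun b _ => Finset.mul_sum _ _ _
  rw [e1, ee_sum hVc R Finset.univ fun b _ => lb_sum _ fun e _ => l1 b e,
    ee_sum hVc R Finset.univ fun b _ => lb_sum _ fun e _ => l2 b e]
  refine Finset.sum_congr rfl fun b _ => ?_
  rw [ee_sum hVc R Finset.univ fun e _ => l1 b e, ee_sum hVc R Finset.univ fun e _ => l2 b e]
  refine Finset.sum_congr rfl fun e _ => ?_
  have hs' : tsupport (fun x => f b x * U b e x) ⊆ ball (0 : E n) R :=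
    (tsupport_mul_subset_right (f := f b) (g := U b e)).trans (hs b e)
  have q := ee_pd hV (ll_mul (hf b) (hU b e)) hs' e
  have m1 : LB fun x => f b x * pd e (U b e) x := lb_mul (lb_ll (hf b)) (lb_pd (hU b e) e)
  have m2 : LB fun x => pd e V x * (f b x * U b e x) :=
    lb_mul (lV e) (lb_mul (lb_ll (hf b)) (lb_ll (hU b e)))
  have q1 : EE V R (fun x => pd e (fun z => f b z * U b e z) x) =
      EE V R (fun x => pd e (f b) x * U b e x) + EE V R (fun x => f b x * pd e (U b e) x) := by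
    rw [← ee_add hVc R (l2 b e) m1]
    refine ee_congr R ?_
    filter_upwards [ll_ae (hf b), ll_ae (hU b e)] with x h1 h2
    rw [Key718.pd_mul h1 h2]
  have q2 : EE V R (fun x => f b x * (pd e V x * U b e x - pd e (U b e) x)) =
      EE V R (fun x => pd e V x * (f b x * U b e x)) -
        EE V R (fun x => f b x * pd e (U b e) x) := by
    rw [← ee_sub hVc R m2 m1]
    exact ee_congr R (Eventually.of_forall fun x => by ring)
  rw [q1] at q
  rw [q2]
  linarith

/-- the key inequality on a ball -/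
theorem key_EE (hV : ContDiff ℝ (⊤ : ℕ∞) V) (h : MM ψ V c C M) {F u : E n → ℝ}
    (hF : ContDiff ℝ (⊤ : ℕ∞) F) (hu : ContDiff ℝ (⊤ : ℕ∞) u) {R : ℝ}
    (hsF : tsupport F ⊆ ball (0 : E n) R) (hsu : tsupport u ⊆ ball (0 : E n) R) :
    EE V R (fun x => (hess V x * tau ψ x * hess F x * tau ψ x * hess F x * tau ψ x).trace)
      + EE V R (fun x => ∑ a, ∑ b, hess V x a b * fld ψ u a x * fld ψ u b x)
      ≤ EE V R (fun x => (Lop ψ u x) ^ 2)
        + 2 * EE V R (fun x => ∑ b, fld ψ (fun z => Lop ψ F z + F z + u z) b x *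
          Lop ψ (pd b F) x) := by
  have hVc := hV.continuous
  have good := rad_good h
  have lV : ∀ i, LB (pd i V) := fun i => lb_cont (v_pd hV i).continuous
  have sU : ∀ b e, tsupport (tU ψ F b e) ⊆ ball (0 : E n) R := fun b e =>
    ts_of_zero hsF fun x hx => tU_zero hx b e
  have sU2 : ∀ b e, tsupport (tU2 ψ F b e) ⊆ ball (0 : E n) R := fun b e =>
    ts_of_zero hsF fun x hx => tU2_zero hx b e
  have ss : ∀ b, tsupport (fld ψ u b) ⊆ ball (0 : E n) R := fun b =>
    ts_of_zero hsu fun x hx => fld_zero hx b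
  have llG : LocallyLipschitz fun z => Lop ψ F z + F z := ll_add (Lop_ll h hF) (smooth_ll hF)
  have lG : ∀ b, LB (fld ψ (fun z => Lop ψ F z + F z) b) := fun b => by
    unfold fld
    exact lb_sum _ fun d _ => lb_mul (lb_ll (tau_ll h b d)) (lb_pd llG d)
  have lL : ∀ b, LB (Lop ψ (pd b F)) := fun b => lb_ll (Lop_ll h (rad_smooth_pd hF b))
  have ls : ∀ b, LB (fld ψ u b) := fun b => lb_ll (fld_ll h hu b)
  have lQ1 : LB fun x => ∑ a, ∑ b, ∑ e, pd e (fun y => rKK ψ F y a b) x * pd a (tU ψ F b e) x :=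
    lb_sum _ fun a _ => lb_sum _ fun b _ => lb_sum _ fun e _ =>
      lb_mul (lb_pd (rKK_ll h hF a b) e) (lb_pd (tU_ll h hF b e) a)
  have lQ2 : LB fun x => ∑ a, ∑ b, ∑ e, pd e (fun y => tau ψ y a b) x * pd a (tU2 ψ F b e) x :=
    lb_sum _ fun a _ => lb_sum _ fun b _ => lb_sum _ fun e _ =>
      lb_mul (lb_pd (tau_ll h a b) e) (lb_pd (tU2_ll h hF b e) a)
  have lJU : LB fun x => ∑ b, ∑ e, pd e (fld ψ u b) x * tU ψ F b e x :=
    lb_sum _ fun b _ => lb_sum _ fun e _ =>
      lb_mul (lb_pd (fld_ll h hu b) e) (lb_ll (tU_ll h hF b e))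
  have lJJ : LB fun x => ∑ b, ∑ e, pd e (fld ψ u b) x * pd b (fld ψ u e) x :=
    lb_sum _ fun b _ => lb_sum _ fun e _ =>
      lb_mul (lb_pd (fld_ll h hu b) e) (lb_pd (fld_ll h hu e) b)
  have lT2 : LB fun x => ∑ b, tU2 ψ F b b x := lb_sum _ fun b _ => lb_ll (tU2_ll h hF b b)
  -- the trace
  have tr : ∀ (P Q : Matrix (Fin n) (Fin n) ℝ) (x : E n),
      ∑ a, ∑ b, ∑ e, pd e (pd a V) x * (P a b * Q b e) = (hess V x * (P * Q)).trace := by
    intro P Q x
    have h1 : ∀ a b, ∑ e, pd e (pd a V) x * (P a b * Q b e) = ∑ e, hess V x e a * (P a b * Q b e) :=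
      fun a b => rfl
    simp only [h1]
    rw [Matrix.trace]
    simp only [Matrix.diag_apply, Matrix.mul_apply]
    rw [Finset.sum_congr rfl fun a _ => Finset.sum_comm, Finset.sum_comm]
    refine Finset.sum_congr rfl fun e _ => Finset.sum_congr rfl fun a _ => ?_
    rw [Finset.mul_sum]
  have A1 := sumK hV (R := R) (P := fun a b x => rKK ψ F x a b) (U := fun b e => tU ψ F b e)
    (fun a b => rKK_ll h hF a b) (fun b e => tU_ll h hF b e) sU
  have A2 := sumK hV (R := R) (P := fun a b x => tau ψ x a b) (U := fun b e => tU2 ψ F b e)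
    (fun a b => tau_ll h a b) (fun b e => tU2_ll h hF b e) sU2
  have A4 := sumK hV (R := R) (ι := Unit) (P := fun a _ => fld ψ u a) (U := fun _ e => fld ψ u e)
    (fun a _ => fld_ll h hu a) (fun _ e => fld_ll h hu e) (fun _ e => ss e)
  have B2 := sumP hV (R := R) (f := fun b x => x b) (U := fun b e => tU2 ψ F b e)
    (fun b => coord_ll b) (fun b e => tU2_ll h hF b e) sU2
  have B1 := sumP hV (R := R) (f := fun b => fld ψ u b) (U := fun b e => tU ψ F b e)
    (fun b => fld_ll h hu b) (fun b e => tU_ll h hF b e) sU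
  -- rewrite the pieces
  have a1 : EE V R (fun x => ∑ a, ∑ b, ∑ e, pd e (pd a V) x * (rKK ψ F x a b * tU ψ F b e x)) =
      EE V R fun x =>
        (hess V x * tau ψ x * hess F x * tau ψ x * hess F x * tau ψ x).trace := by
    refine ee_congr R (Eventually.of_forall fun x => ?_)
    have h1 := tr (tau ψ x * (hess F x * tau ψ x)) (hess F x * tau ψ x) x
    simp only [rKK_eq, tU_eq]
    rw [h1]
    simp only [Matrix.mul_assoc]
  have a2 : EE V R (fun x => ∑ a, ∑ b, ∑ e, pd e (pd a V) x * (tau ψ x a b * tU2 ψ F b e x)) =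
      EE V R fun x =>
        (hess V x * tau ψ x * hess F x * tau ψ x * hess F x * tau ψ x).trace := by
    refine ee_congr R (Eventually.of_forall fun x => ?_)
    have h1 := tr (tau ψ x) ((hess F x * tau ψ x) * (hess F x * tau ψ x)) x
    simp only [tU2_eq]
    rw [h1]
    simp only [Matrix.mul_assoc]
  have a3 : EE V R (fun x => ∑ b, (∑ a, (pd a V x * rKK ψ F x a b -
        pd a (fun y => rKK ψ F y a b) x)) *
        (∑ e, (pd e V x * tU ψ F b e x - pd e (tU ψ F b e) x))) =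
      EE V R fun x => ∑ b, fld ψ (fun z => Lop ψ F z + F z) b x * Lop ψ (pd b F) x := by
    refine ee_congr R ?_
    filter_upwards [good] with x hx
    refine Finset.sum_congr rfl fun b _ => ?_
    rw [ptK h hF hx, ptU h hF hx]
    ring
  have a5 : EE V R (fun x => ∑ b, (∑ a, (pd a V x * tau ψ x a b -
        pd a (fun y => tau ψ y a b) x)) *
        (∑ e, (pd e V x * tU2 ψ F b e x - pd e (tU2 ψ F b e) x))) =
      EE V R fun x => ∑ b, x b * (∑ e, (pd e V x * tU2 ψ F b e x - pd e (tU2 ψ F b e) x)) := by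
    refine ee_congr R ?_
    filter_upwards [good] with x hx
    refine Finset.sum_congr rfl fun b _ => ?_
    rw [ptT h hx]
  have a6 : EE V R (fun x => ∑ b, ∑ e, pd e (fun y : E n => y b) x * tU2 ψ F b e x) =
      EE V R fun x => ∑ b, tU2 ψ F b b x := by
    refine ee_congr R (Eventually.of_forall fun x => ?_)
    refine Finset.sum_congr rfl fun b _ => ?_
    simp only [pdc718, ite_mul, one_mul, zero_mul]
    rw [Finset.sum_ite_eq]
    simp
  have a7 : EE V R (fun x => ∑ b, fld ψ u b x *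
        (∑ e, (pd e V x * tU ψ F b e x - pd e (tU ψ F b e) x))) =
      -EE V R fun x => ∑ b, fld ψ u b x * Lop ψ (pd b F) x := by
    have h1 : EE V R (fun x => ∑ b, fld ψ u b x *
        (∑ e, (pd e V x * tU ψ F b e x - pd e (tU ψ F b e) x))) =
        EE V R fun x => (-1) * ∑ b, fld ψ u b x * Lop ψ (pd b F) x := by
      refine ee_congr R ?_
      filter_upwards [good] with x hx
      rw [Finset.mul_sum]
      refine Finset.sum_congr rfl fun b _ => ?_
      rw [ptU h hF hx]
      ring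
    rw [h1, ee_smul]
    ring
  have a8 : EE V R (fun x => ∑ a, ∑ _b : Unit, ∑ e, pd e (pd a V) x *
        (fld ψ u a x * fld ψ u e x)) =
      EE V R fun x => ∑ a, ∑ b, hess V x a b * fld ψ u a x * fld ψ u b x := by
    refine ee_congr R (Eventually.of_forall fun x => ?_)
    simp only [Finset.univ_unique, Finset.sum_singleton]
    refine Finset.sum_congr rfl fun a _ => Finset.sum_congr rfl fun b _ => ?_
    have h1 : pd b (pd a V) x = hess V x a b := rad_hess_symm (rad_smooth_C2 hV) x b a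
    rw [h1]
    ring
  have a9 : EE V R (fun x => ∑ _b : Unit, (∑ a, (pd a V x * fld ψ u a x - pd a (fld ψ u a) x)) *
        (∑ e, (pd e V x * fld ψ u e x - pd e (fld ψ u e) x))) =
      EE V R fun x => (Lop ψ u x) ^ 2 := by
    refine ee_congr R ?_
    filter_upwards [good] with x hx
    simp only [Finset.univ_unique, Finset.sum_singleton]
    rw [ptS h hu hx]
    ring
  have a10 : EE V R (fun x => ∑ a, ∑ _b : Unit, ∑ e, pd e (fld ψ u a) x * pd a (fld ψ u e) x) =
      EE V R fun x => ∑ b, ∑ e, pd e (fld ψ u b) x * pd b (fld ψ u e) x := by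
    refine ee_congr R (Eventually.of_forall fun x => ?_)
    simp only [Finset.univ_unique, Finset.sum_singleton]
  have hX : 0 ≤ 2 * EE V R (fun x => ∑ a, ∑ b, ∑ e,
        pd e (fun y => rKK ψ F y a b) x * pd a (tU ψ F b e) x) -
      EE V R fun x => ∑ a, ∑ b, ∑ e, pd e (fun y => tau ψ y a b) x * pd a (tU2 ψ F b e) x := by
    rw [← ee_smul, ← ee_sub hVc R (lb_mul (lb_const 2) lQ1) lQ2]
    refine ee_nonneg R ?_
    filter_upwards [good] with x hx
    exact ptX h hF hx
  have hJ : 0 ≤ EE V R (fun x => ∑ b, ∑ e, pd e (fld ψ u b) x * pd b (fld ψ u e) x) +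
      EE V R (fun x => ∑ b, tU2 ψ F b b x) -
      2 * EE V R fun x => ∑ b, ∑ e, pd e (fld ψ u b) x * tU ψ F b e x := by
    rw [← ee_smul, ← ee_add hVc R lJJ lT2, ← ee_sub hVc R (lb_add lJJ lT2)
      (lb_mul (lb_const 2) lJU)]
    refine ee_nonneg R ?_
    filter_upwards [good] with x hx
    have := ptJ h hF hu hx
    linarith
  have hH : EE V R (fun x => ∑ b, fld ψ (fun z => Lop ψ F z + F z + u z) b x *
          Lop ψ (pd b F) x) =
      EE V R (fun x => ∑ b, fld ψ (fun z => Lop ψ F z + F z) b x * Lop ψ (pd b F) x) +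
        EE V R fun x => ∑ b, fld ψ u b x * Lop ψ (pd b F) x := by
    rw [← ee_add hVc R (lb_sum _ fun b _ => lb_mul (lG b) (lL b))
      (lb_sum _ fun b _ => lb_mul (ls b) (lL b))]
    refine ee_congr R ?_
    filter_upwards [good] with x hx
    rw [← Finset.sum_add_distrib]
    refine Finset.sum_congr rfl fun b _ => ?_
    rw [ptH hF hu hx]
    ring
  rw [a1, a3] at A1
  rw [a2, a5, B2, a6] at A2
  rw [a8, a9, a10] at A4
  rw [a7] at B1
  linarith

/-- `StmtKey` -/
theorem stmtKey : StmtKey := by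
  intro n ψ V c C M hN h F u hF hu
  have hV := hN.smooth
  obtain ⟨R1, hR1⟩ := hF.2.isCompact.isBounded.subset_ball 0
  obtain ⟨R2, hR2⟩ := hu.2.isCompact.isBounded.subset_ball 0
  set R := max R1 R2 with hR
  have hsF : tsupport F ⊆ ball (0 : E n) R := hR1.trans (ball_subset_ball (le_max_left _ _))
  have hsu : tsupport u ⊆ ball (0 : E n) R := hR2.trans (ball_subset_ball (le_max_right _ _))
  have key := key_EE hV h hF.1 hu.1 hsF hsu
  have nF : ∀ x, x ∉ ball (0 : E n) R → x ∉ tsupport F := fun x hx hx' => hx (hsF hx')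
  have nu : ∀ x, x ∉ ball (0 : E n) R → x ∉ tsupport u := fun x hx hx' => hx (hsu hx')
  have z1 := ee_full (V := V) R (f := fun x =>
    (hess V x * tau ψ x * hess F x * tau ψ x * hess F x * tau ψ x).trace) fun x hx => by
      have h1 : hess F x = 0 := by
        ext i j
        exact hess_zero (nF x hx) i j
      rw [h1]
      simp
  have z2 := ee_full (V := V) R (f := fun x =>
    ∑ a, ∑ b, hess V x a b * fld ψ u a x * fld ψ u b x) fun x hx =>
      Finset.sum_eq_zero fun a _ => Finset.sum_eq_zero fun b _ => by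
        rw [fld_zero (nu x hx) b, mul_zero]
  have z3 := ee_full (V := V) R (f := fun x => (Lop ψ u x) ^ 2) fun x hx => by
    rw [Lop_zero (nu x hx)]
    ring
  have z4 := ee_full (V := V) R (f := fun x =>
    ∑ b, fld ψ (fun z => Lop ψ F z + F z + u z) b x * Lop ψ (pd b F) x) fun x hx =>
      Finset.sum_eq_zero fun b _ => by rw [Lopd_zero (nF x hx) b, mul_zero]
  unfold Ex
  rw [z1, z2, z3, z4, ← add_div, ← mul_div_assoc, ← add_div]
  refine div_le_div_of_nonneg_right key ?_
  exact integral_nonneg fun x => (Real.exp_pos _).le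

end Vale.Agent.P227.M.Key718
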