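import Mathlib

/-! # Pointwise algebra of the key identity -/

open Matrix Finset

namespace Vale.Agent.P227.M.Key718

variable {n : ℕ}

/-- in a frame with `τ = 1` -/
theorem frame_nonneg (t f : Fin n → Fin n → Fin n → ℝ) (N : Fin n → Fin n → ℝ)
    (hN : ∀ i j, N i j = N j i)
    (ht1 : ∀ a b c, t a b c = t a c b) (ht2 : ∀ a b c, t a b c = t b a c)
    (hf1 : ∀ a b c, f a b c = f a c b) (hf2 : ∀ a b c, f a b c = f b a c)
    (w : Fin n → Fin n → Fin n → ℝ) (hw : ∀ l m k, w l m k = f l m k + ∑ j, N m j * t l j k) :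
    0 ≤ ∑ k, ∑ l, ((∑ i, ∑ j, t l k i * N i j * w k j l) - (∑ i, ∑ j, t l k i * w k i j * N j l)
      + 2 * ∑ i, w l k i * w k i l) := by
  set p : Fin n → Fin n → Fin n → ℝ := fun a b c => ∑ j, N c j * t a j b with hp
  have hps : ∀ a b c, p a b c = p b a c := by
    intro a b c
    simp only [hp]
    refine Finset.sum_congr rfl fun j _ => ?_
    rw [ht1 a j b, ht2 a b j, ht1 b a j]
  have hw' : ∀ l m k, w l m k = f l k m + p l k m := by
    intro l m k
    rw [hw, hf1]
  have e1 : ∑ k, ∑ l, ∑ i, ∑ j, t l k i * N i j * w k j l =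
      ∑ k, ∑ l, ∑ j, p k l j * w k j l := by
    refine Finset.sum_congr rfl fun k _ => Finset.sum_congr rfl fun l _ => ?_
    rw [Finset.sum_comm]
    refine Finset.sum_congr rfl fun j _ => ?_
    rw [← Finset.sum_mul, hps]
    congr 1
    simp only [hp]
    refine Finset.sum_congr rfl fun i _ => ?_
    rw [hN i j, ht1 l k i]
    ring
  have e2 : ∑ k, ∑ l, ∑ i, ∑ j, t l k i * w k i j * N j l =
      ∑ k, ∑ i, ∑ j, p k i j * w k i j := by
    refine Finset.sum_congr rfl fun k _ => ?_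
    rw [Finset.sum_comm]
    refine Finset.sum_congr rfl fun i _ => ?_
    rw [Finset.sum_comm]
    refine Finset.sum_congr rfl fun j _ => ?_
    simp only [hp]
    rw [Finset.sum_mul]
    refine Finset.sum_congr rfl fun l _ => ?_
    rw [ht2 l k i]
    ring
  have e3 : ∑ k, ∑ l, ∑ i, w l k i * w k i l = ∑ k, ∑ l, ∑ i, w k l i * w k i l := by
    have h1 : ∀ k l i, w l k i = w i k l := by
      intro k l i
      rw [hw', hw', hps l i k, hf2 l i k]
    have h2 : ∑ k, ∑ l, ∑ i, w l k i * w k i l = ∑ k, ∑ l, ∑ i, w i k l * w l i k := by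
      refine Finset.sum_congr rfl fun k _ => Finset.sum_congr rfl fun l _ =>
        Finset.sum_congr rfl fun i _ => ?_
      rw [h1 k l i, h1 i k l]
    rw [h2]
    rw [Finset.sum_comm]
    have h3 : ∀ l, ∑ k, ∑ i, w i k l * w l i k = ∑ k, ∑ i, w l k i * w l i k := by
      intro l
      refine Finset.sum_congr rfl fun k _ => Finset.sum_congr rfl fun i _ => ?_
      rw [h1 k i l]
    exact Finset.sum_congr rfl fun l _ => h3 l
  have e4 : ∑ k, ∑ l, ((∑ i, ∑ j, t l k i * N i j * w k j l) -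
      (∑ i, ∑ j, t l k i * w k i j * N j l) + 2 * ∑ i, w l k i * w k i l) =
      (∑ k, ∑ l, ∑ i, ∑ j, t l k i * N i j * w k j l) -
      (∑ k, ∑ l, ∑ i, ∑ j, t l k i * w k i j * N j l) + 2 * ∑ k, ∑ l, ∑ i, w l k i * w k i l := by
    rw [← Finset.sum_sub_distrib, Finset.mul_sum, ← Finset.sum_add_distrib]
    refine Finset.sum_congr rfl fun k _ => ?_
    rw [← Finset.sum_sub_distrib, Finset.mul_sum, ← Finset.sum_add_distrib]
  rw [e4, e1, e2, e3]
  have key : ∀ k, (∑ l, ∑ j, p k l j * w k j l) - (∑ i, ∑ j, p k i j * w k i j) +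
      2 * (∑ l, ∑ i, w k l i * w k i l) =
      ∑ b, ∑ c, (1 / 2) * (2 * f k b c + p k b c + p k c b) ^ 2 := by
    intro k
    have g1 : ∑ l, ∑ j, p k l j * w k j l = ∑ b, ∑ c, (p k b c * (f k b c + p k b c)) := by
      refine Finset.sum_congr rfl fun b _ => Finset.sum_congr rfl fun c _ => ?_
      rw [hw']
    have g2 : ∑ i, ∑ j, p k i j * w k i j = ∑ b, ∑ c, (p k b c * (f k b c + p k c b)) := by
      refine Finset.sum_congr rfl fun b _ => Finset.sum_congr rfl fun c _ => ?_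
      rw [hw', hf1 k c b]
    have g3 : ∑ l, ∑ i, w k l i * w k i l =
        ∑ b, ∑ c, ((f k b c + p k c b) * (f k b c + p k b c)) := by
      refine Finset.sum_congr rfl fun b _ => Finset.sum_congr rfl fun c _ => ?_
      rw [hw', hw', hf1 k c b]
    have g4 : ∑ b, ∑ c, (p k b c) ^ 2 = ∑ b, ∑ c, (p k c b) ^ 2 := Finset.sum_comm
    have g5 : ∑ b, ∑ c, f k b c * p k b c = ∑ b, ∑ c, f k b c * p k c b := by
      rw [Finset.sum_comm]
      refine Finset.sum_congr rfl fun b _ => Finset.sum_congr rfl fun c _ => ?_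
      rw [hf1 k c b]
    have h1 : (∑ l, ∑ j, p k l j * w k j l) - (∑ i, ∑ j, p k i j * w k i j) +
        2 * (∑ l, ∑ i, w k l i * w k i l) - (1 / 2) * ∑ b, ∑ c, (p k b c) ^ 2
          + (1 / 2) * ∑ b, ∑ c, (p k c b) ^ 2 =
        ∑ b, ∑ c, (1 / 2) * (2 * f k b c + p k b c + p k c b) ^ 2 := by
      rw [g1, g2, g3, Finset.mul_sum, Finset.mul_sum, Finset.mul_sum, ← Finset.sum_sub_distrib,
        ← Finset.sum_add_distrib, ← Finset.sum_sub_distrib, ← Finset.sum_add_distrib]
      refine Finset.sum_congr rfl fun b _ => ?_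
      rw [Finset.mul_sum, Finset.mul_sum, Finset.mul_sum, ← Finset.sum_sub_distrib,
        ← Finset.sum_add_distrib, ← Finset.sum_sub_distrib, ← Finset.sum_add_distrib]
      refine Finset.sum_congr rfl fun c _ => ?_
      ring
    rw [← h1, g4]
    ring
  have h0 : (∑ k, ∑ l, ∑ j, p k l j * w k j l) - (∑ k, ∑ i, ∑ j, p k i j * w k i j) +
      2 * ∑ k, ∑ l, ∑ i, w k l i * w k i l =
      ∑ k, ∑ b, ∑ c, (1 / 2) * (2 * f k b c + p k b c + p k c b) ^ 2 := by
    rw [Finset.mul_sum, ← Finset.sum_sub_distrib, ← Finset.sum_add_distrib]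
    exact Finset.sum_congr rfl fun k _ => key k
  rw [h0]
  positivity

end Vale.Agent.P227.M.Key718
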